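import Vale.Agent.Lib.P052.helper29.CliqueCheck
import Vale.Agent.Lib.P052.lead.Data

/-! Kernel-checked local clique tests for the 321 vertices used, in small blocks. -/

namespace Vale.Agent.Lib.P052.H29

theorem sub_10_0 : freeRange 4 (candAt (pairsFrom 0 (Vale.Agent.Lib.P052.adjRows.take 321)) 10) 0 13 = true := by
  decide +kernel

theorem sub_10_13 : freeRange 4 (candAt (pairsFrom 0 (Vale.Agent.Lib.P052.adjRows.take 321)) 10) 13 23 = true := by
  decide +kernel

theorem sub_10_36 : freeRange 4 (candAt (pairsFrom 0 (Vale.Agent.Lib.P052.adjRows.take 321)) 10) 36 364 = true := by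
  decide +kernel

theorem sub_11_0 : freeRange 4 (candAt (pairsFrom 0 (Vale.Agent.Lib.P052.adjRows.take 321)) 11) 0 13 = true := by
  decide +kernel

theorem sub_11_13 : freeRange 4 (candAt (pairsFrom 0 (Vale.Agent.Lib.P052.adjRows.take 321)) 11) 13 22 = true := by
  decide +kernel

theorem sub_11_35 : freeRange 4 (candAt (pairsFrom 0 (Vale.Agent.Lib.P052.adjRows.take 321)) 11) 35 365 = true := by
  decide +kernel

theorem sub_12_0 : freeRange 4 (candAt (pairsFrom 0 (Vale.Agent.Lib.P052.adjRows.take 321)) 12) 0 13 = true := by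
  decide +kernel

theorem sub_12_13 : freeRange 4 (candAt (pairsFrom 0 (Vale.Agent.Lib.P052.adjRows.take 321)) 12) 13 21 = true := by
  decide +kernel

theorem sub_12_34 : freeRange 4 (candAt (pairsFrom 0 (Vale.Agent.Lib.P052.adjRows.take 321)) 12) 34 366 = true := by
  decide +kernel

theorem sub_13_0 : freeRange 4 (candAt (pairsFrom 0 (Vale.Agent.Lib.P052.adjRows.take 321)) 13) 0 12 = true := by
  decide +kernel

theorem sub_13_12 : freeRange 4 (candAt (pairsFrom 0 (Vale.Agent.Lib.P052.adjRows.take 321)) 13) 12 20 = true := by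
  decide +kernel

theorem sub_13_32 : freeRange 4 (candAt (pairsFrom 0 (Vale.Agent.Lib.P052.adjRows.take 321)) 13) 32 368 = true := by
  decide +kernel

theorem sub_14_0 : freeRange 4 (candAt (pairsFrom 0 (Vale.Agent.Lib.P052.adjRows.take 321)) 14) 0 13 = true := by
  decide +kernel

theorem sub_14_13 : freeRange 4 (candAt (pairsFrom 0 (Vale.Agent.Lib.P052.adjRows.take 321)) 14) 13 22 = true := by
  decide +kernel

theorem sub_14_35 : freeRange 4 (candAt (pairsFrom 0 (Vale.Agent.Lib.P052.adjRows.take 321)) 14) 35 365 = true := by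
  decide +kernel

theorem sub_15_0 : freeRange 4 (candAt (pairsFrom 0 (Vale.Agent.Lib.P052.adjRows.take 321)) 15) 0 15 = true := by
  decide +kernel

theorem sub_15_15 : freeRange 4 (candAt (pairsFrom 0 (Vale.Agent.Lib.P052.adjRows.take 321)) 15) 15 39 = true := by
  decide +kernel

theorem sub_15_54 : freeRange 4 (candAt (pairsFrom 0 (Vale.Agent.Lib.P052.adjRows.take 321)) 15) 54 346 = true := by
  decide +kernel

theorem sub_16_0 : freeRange 4 (candAt (pairsFrom 0 (Vale.Agent.Lib.P052.adjRows.take 321)) 16) 0 15 = true := by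
  decide +kernel

theorem sub_16_15 : freeRange 4 (candAt (pairsFrom 0 (Vale.Agent.Lib.P052.adjRows.take 321)) 16) 15 33 = true := by
  decide +kernel

theorem sub_16_48 : freeRange 4 (candAt (pairsFrom 0 (Vale.Agent.Lib.P052.adjRows.take 321)) 16) 48 352 = true := by
  decide +kernel

theorem sub_17_0 : freeRange 4 (candAt (pairsFrom 0 (Vale.Agent.Lib.P052.adjRows.take 321)) 17) 0 15 = true := by
  decide +kernel

theorem sub_17_15 : freeRange 4 (candAt (pairsFrom 0 (Vale.Agent.Lib.P052.adjRows.take 321)) 17) 15 34 = true := by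
  decide +kernel

theorem sub_17_49 : freeRange 4 (candAt (pairsFrom 0 (Vale.Agent.Lib.P052.adjRows.take 321)) 17) 49 351 = true := by
  decide +kernel

theorem sub_18_0 : freeRange 4 (candAt (pairsFrom 0 (Vale.Agent.Lib.P052.adjRows.take 321)) 18) 0 15 = true := by
  decide +kernel

theorem sub_18_15 : freeRange 4 (candAt (pairsFrom 0 (Vale.Agent.Lib.P052.adjRows.take 321)) 18) 15 32 = true := by
  decide +kernel

theorem sub_18_47 : freeRange 4 (candAt (pairsFrom 0 (Vale.Agent.Lib.P052.adjRows.take 321)) 18) 47 353 = true := by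
  decide +kernel

theorem sub_19_0 : freeRange 4 (candAt (pairsFrom 0 (Vale.Agent.Lib.P052.adjRows.take 321)) 19) 0 15 = true := by
  decide +kernel

theorem sub_19_15 : freeRange 4 (candAt (pairsFrom 0 (Vale.Agent.Lib.P052.adjRows.take 321)) 19) 15 32 = true := by
  decide +kernel

theorem sub_19_47 : freeRange 4 (candAt (pairsFrom 0 (Vale.Agent.Lib.P052.adjRows.take 321)) 19) 47 353 = true := by
  decide +kernel

theorem sub_20_0 : freeRange 4 (candAt (pairsFrom 0 (Vale.Agent.Lib.P052.adjRows.take 321)) 20) 0 15 = true := by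
  decide +kernel

theorem sub_20_15 : freeRange 4 (candAt (pairsFrom 0 (Vale.Agent.Lib.P052.adjRows.take 321)) 20) 15 385 = true := by
  decide +kernel

theorem sub_21_0 : freeRange 4 (candAt (pairsFrom 0 (Vale.Agent.Lib.P052.adjRows.take 321)) 21) 0 14 = true := by
  decide +kernel

theorem sub_21_14 : freeRange 4 (candAt (pairsFrom 0 (Vale.Agent.Lib.P052.adjRows.take 321)) 21) 14 386 = true := by
  decide +kernel

theorem sub_22_0 : freeRange 4 (candAt (pairsFrom 0 (Vale.Agent.Lib.P052.adjRows.take 321)) 22) 0 14 = true := by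
  decide +kernel

theorem sub_22_14 : freeRange 4 (candAt (pairsFrom 0 (Vale.Agent.Lib.P052.adjRows.take 321)) 22) 14 40 = true := by
  decide +kernel

end Vale.Agent.Lib.P052.H29
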