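import Vale.Agent.Lib.P052.helper29.CliqueCheck
import Vale.Agent.Lib.P052.lead.Data

/-! Kernel-checked local clique tests for the 321 vertices used, in small blocks. -/

namespace Vale.Agent.Lib.P052.H29

theorem sub_22_54 : freeRange 4 (candAt (pairsFrom 0 (Vale.Agent.Lib.P052.adjRows.take 321)) 22) 54 346 = true := by
  decide +kernel

theorem sub_23_0 : freeRange 4 (candAt (pairsFrom 0 (Vale.Agent.Lib.P052.adjRows.take 321)) 23) 0 14 = true := by
  decide +kernel

theorem sub_23_14 : freeRange 4 (candAt (pairsFrom 0 (Vale.Agent.Lib.P052.adjRows.take 321)) 23) 14 386 = true := by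
  decide +kernel

theorem sub_24_0 : freeRange 4 (candAt (pairsFrom 0 (Vale.Agent.Lib.P052.adjRows.take 321)) 24) 0 14 = true := by
  decide +kernel

theorem sub_24_14 : freeRange 4 (candAt (pairsFrom 0 (Vale.Agent.Lib.P052.adjRows.take 321)) 24) 14 45 = true := by
  decide +kernel

theorem sub_24_59 : freeRange 4 (candAt (pairsFrom 0 (Vale.Agent.Lib.P052.adjRows.take 321)) 24) 59 341 = true := by
  decide +kernel

theorem sub_25_0 : freeRange 4 (candAt (pairsFrom 0 (Vale.Agent.Lib.P052.adjRows.take 321)) 25) 0 16 = true := by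
  decide +kernel

theorem sub_25_16 : freeRange 4 (candAt (pairsFrom 0 (Vale.Agent.Lib.P052.adjRows.take 321)) 25) 16 384 = true := by
  decide +kernel

theorem sub_26_0 : freeRange 4 (candAt (pairsFrom 0 (Vale.Agent.Lib.P052.adjRows.take 321)) 26) 0 16 = true := by
  decide +kernel

theorem sub_26_16 : freeRange 4 (candAt (pairsFrom 0 (Vale.Agent.Lib.P052.adjRows.take 321)) 26) 16 384 = true := by
  decide +kernel

theorem sub_27_0 : freeRange 4 (candAt (pairsFrom 0 (Vale.Agent.Lib.P052.adjRows.take 321)) 27) 0 16 = true := by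
  decide +kernel

theorem sub_27_16 : freeRange 4 (candAt (pairsFrom 0 (Vale.Agent.Lib.P052.adjRows.take 321)) 27) 16 384 = true := by
  decide +kernel

theorem sub_28_0 : freeRange 4 (candAt (pairsFrom 0 (Vale.Agent.Lib.P052.adjRows.take 321)) 28) 0 16 = true := by
  decide +kernel

theorem sub_28_16 : freeRange 4 (candAt (pairsFrom 0 (Vale.Agent.Lib.P052.adjRows.take 321)) 28) 16 384 = true := by
  decide +kernel

theorem sub_29_0 : freeRange 4 (candAt (pairsFrom 0 (Vale.Agent.Lib.P052.adjRows.take 321)) 29) 0 16 = true := by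
  decide +kernel

theorem sub_29_16 : freeRange 4 (candAt (pairsFrom 0 (Vale.Agent.Lib.P052.adjRows.take 321)) 29) 16 384 = true := by
  decide +kernel

theorem sub_30_0 : freeRange 4 (candAt (pairsFrom 0 (Vale.Agent.Lib.P052.adjRows.take 321)) 30) 0 19 = true := by
  decide +kernel

theorem sub_30_19 : freeRange 4 (candAt (pairsFrom 0 (Vale.Agent.Lib.P052.adjRows.take 321)) 30) 19 381 = true := by
  decide +kernel

theorem sub_31_0 : freeRange 4 (candAt (pairsFrom 0 (Vale.Agent.Lib.P052.adjRows.take 321)) 31) 0 18 = true := by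
  decide +kernel

theorem sub_31_18 : freeRange 4 (candAt (pairsFrom 0 (Vale.Agent.Lib.P052.adjRows.take 321)) 31) 18 382 = true := by
  decide +kernel

theorem sub_32_0 : freeRange 4 (candAt (pairsFrom 0 (Vale.Agent.Lib.P052.adjRows.take 321)) 32) 0 18 = true := by
  decide +kernel

theorem sub_32_18 : freeRange 4 (candAt (pairsFrom 0 (Vale.Agent.Lib.P052.adjRows.take 321)) 32) 18 382 = true := by
  decide +kernel

theorem sub_33_0 : freeRange 4 (candAt (pairsFrom 0 (Vale.Agent.Lib.P052.adjRows.take 321)) 33) 0 18 = true := by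
  decide +kernel

theorem sub_33_18 : freeRange 4 (candAt (pairsFrom 0 (Vale.Agent.Lib.P052.adjRows.take 321)) 33) 18 382 = true := by
  decide +kernel

theorem sub_34_0 : freeRange 4 (candAt (pairsFrom 0 (Vale.Agent.Lib.P052.adjRows.take 321)) 34) 0 18 = true := by
  decide +kernel

theorem sub_34_18 : freeRange 4 (candAt (pairsFrom 0 (Vale.Agent.Lib.P052.adjRows.take 321)) 34) 18 382 = true := by
  decide +kernel

theorem sub_35_0 : freeRange 4 (candAt (pairsFrom 0 (Vale.Agent.Lib.P052.adjRows.take 321)) 35) 0 18 = true := by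
  decide +kernel

theorem sub_35_18 : freeRange 4 (candAt (pairsFrom 0 (Vale.Agent.Lib.P052.adjRows.take 321)) 35) 18 382 = true := by
  decide +kernel

theorem sub_36_0 : freeRange 4 (candAt (pairsFrom 0 (Vale.Agent.Lib.P052.adjRows.take 321)) 36) 0 18 = true := by
  decide +kernel

theorem sub_36_18 : freeRange 4 (candAt (pairsFrom 0 (Vale.Agent.Lib.P052.adjRows.take 321)) 36) 18 382 = true := by
  decide +kernel

theorem sub_37_0 : freeRange 4 (candAt (pairsFrom 0 (Vale.Agent.Lib.P052.adjRows.take 321)) 37) 0 18 = true := by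
  decide +kernel

theorem sub_37_18 : freeRange 4 (candAt (pairsFrom 0 (Vale.Agent.Lib.P052.adjRows.take 321)) 37) 18 382 = true := by
  decide +kernel

theorem sub_38_0 : freeRange 4 (candAt (pairsFrom 0 (Vale.Agent.Lib.P052.adjRows.take 321)) 38) 0 18 = true := by
  decide +kernel

end Vale.Agent.Lib.P052.H29
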