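import Vale.Agent.Lib.P052.helper29.CliqueCheck
import Vale.Agent.Lib.P052.lead.Data

/-! Kernel-checked local clique tests for the 321 vertices used, in small blocks. -/

namespace Vale.Agent.Lib.P052.H29

theorem sub_38_18 : freeRange 4 (candAt (pairsFrom 0 (Vale.Agent.Lib.P052.adjRows.take 321)) 38) 18 382 = true := by
  decide +kernel

theorem sub_39_0 : freeRange 4 (candAt (pairsFrom 0 (Vale.Agent.Lib.P052.adjRows.take 321)) 39) 0 18 = true := by
  decide +kernel

theorem sub_39_18 : freeRange 4 (candAt (pairsFrom 0 (Vale.Agent.Lib.P052.adjRows.take 321)) 39) 18 382 = true := by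
  decide +kernel

theorem sub_40_0 : freeRange 4 (candAt (pairsFrom 0 (Vale.Agent.Lib.P052.adjRows.take 321)) 40) 0 18 = true := by
  decide +kernel

theorem sub_40_18 : freeRange 4 (candAt (pairsFrom 0 (Vale.Agent.Lib.P052.adjRows.take 321)) 40) 18 382 = true := by
  decide +kernel

theorem sub_41_0 : freeRange 4 (candAt (pairsFrom 0 (Vale.Agent.Lib.P052.adjRows.take 321)) 41) 0 17 = true := by
  decide +kernel

theorem sub_41_17 : freeRange 4 (candAt (pairsFrom 0 (Vale.Agent.Lib.P052.adjRows.take 321)) 41) 17 383 = true := by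
  decide +kernel

theorem sub_42_0 : freeRange 4 (candAt (pairsFrom 0 (Vale.Agent.Lib.P052.adjRows.take 321)) 42) 0 18 = true := by
  decide +kernel

theorem sub_42_18 : freeRange 4 (candAt (pairsFrom 0 (Vale.Agent.Lib.P052.adjRows.take 321)) 42) 18 382 = true := by
  decide +kernel

theorem sub_43_0 : freeRange 4 (candAt (pairsFrom 0 (Vale.Agent.Lib.P052.adjRows.take 321)) 43) 0 17 = true := by
  decide +kernel

theorem sub_43_17 : freeRange 4 (candAt (pairsFrom 0 (Vale.Agent.Lib.P052.adjRows.take 321)) 43) 17 383 = true := by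
  decide +kernel

theorem sub_44_0 : freeRange 4 (candAt (pairsFrom 0 (Vale.Agent.Lib.P052.adjRows.take 321)) 44) 0 17 = true := by
  decide +kernel

theorem sub_44_17 : freeRange 4 (candAt (pairsFrom 0 (Vale.Agent.Lib.P052.adjRows.take 321)) 44) 17 383 = true := by
  decide +kernel

theorem sub_45_0 : freeRange 4 (candAt (pairsFrom 0 (Vale.Agent.Lib.P052.adjRows.take 321)) 45) 0 22 = true := by
  decide +kernel

theorem sub_45_22 : freeRange 4 (candAt (pairsFrom 0 (Vale.Agent.Lib.P052.adjRows.take 321)) 45) 22 378 = true := by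
  decide +kernel

theorem sub_46_0 : freeRange 4 (candAt (pairsFrom 0 (Vale.Agent.Lib.P052.adjRows.take 321)) 46) 0 19 = true := by
  decide +kernel

theorem sub_46_19 : freeRange 4 (candAt (pairsFrom 0 (Vale.Agent.Lib.P052.adjRows.take 321)) 46) 19 381 = true := by
  decide +kernel

theorem sub_47_0 : freeRange 4 (candAt (pairsFrom 0 (Vale.Agent.Lib.P052.adjRows.take 321)) 47) 0 20 = true := by
  decide +kernel

theorem sub_47_20 : freeRange 4 (candAt (pairsFrom 0 (Vale.Agent.Lib.P052.adjRows.take 321)) 47) 20 380 = true := by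
  decide +kernel

theorem sub_48_0 : freeRange 4 (candAt (pairsFrom 0 (Vale.Agent.Lib.P052.adjRows.take 321)) 48) 0 19 = true := by
  decide +kernel

theorem sub_48_19 : freeRange 4 (candAt (pairsFrom 0 (Vale.Agent.Lib.P052.adjRows.take 321)) 48) 19 381 = true := by
  decide +kernel

theorem sub_49_0 : freeRange 4 (candAt (pairsFrom 0 (Vale.Agent.Lib.P052.adjRows.take 321)) 49) 0 19 = true := by
  decide +kernel

theorem sub_49_19 : freeRange 4 (candAt (pairsFrom 0 (Vale.Agent.Lib.P052.adjRows.take 321)) 49) 19 381 = true := by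
  decide +kernel

theorem sub_50_0 : freeRange 4 (candAt (pairsFrom 0 (Vale.Agent.Lib.P052.adjRows.take 321)) 50) 0 26 = true := by
  decide +kernel

theorem sub_50_26 : freeRange 4 (candAt (pairsFrom 0 (Vale.Agent.Lib.P052.adjRows.take 321)) 50) 26 374 = true := by
  decide +kernel

theorem sub_51_0 : freeRange 4 (candAt (pairsFrom 0 (Vale.Agent.Lib.P052.adjRows.take 321)) 51) 0 23 = true := by
  decide +kernel

theorem sub_51_23 : freeRange 4 (candAt (pairsFrom 0 (Vale.Agent.Lib.P052.adjRows.take 321)) 51) 23 377 = true := by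
  decide +kernel

theorem sub_52_0 : freeRange 4 (candAt (pairsFrom 0 (Vale.Agent.Lib.P052.adjRows.take 321)) 52) 0 22 = true := by
  decide +kernel

theorem sub_52_22 : freeRange 4 (candAt (pairsFrom 0 (Vale.Agent.Lib.P052.adjRows.take 321)) 52) 22 378 = true := by
  decide +kernel

theorem sub_53_0 : freeRange 4 (candAt (pairsFrom 0 (Vale.Agent.Lib.P052.adjRows.take 321)) 53) 0 23 = true := by
  decide +kernel

theorem sub_53_23 : freeRange 4 (candAt (pairsFrom 0 (Vale.Agent.Lib.P052.adjRows.take 321)) 53) 23 377 = true := by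
  decide +kernel

theorem sub_54_0 : freeRange 4 (candAt (pairsFrom 0 (Vale.Agent.Lib.P052.adjRows.take 321)) 54) 0 22 = true := by
  decide +kernel

theorem sub_54_22 : freeRange 4 (candAt (pairsFrom 0 (Vale.Agent.Lib.P052.adjRows.take 321)) 54) 22 378 = true := by
  decide +kernel

theorem sub_55_0 : freeRange 4 (candAt (pairsFrom 0 (Vale.Agent.Lib.P052.adjRows.take 321)) 55) 0 31 = true := by
  decide +kernel

theorem sub_55_31 : freeRange 4 (candAt (pairsFrom 0 (Vale.Agent.Lib.P052.adjRows.take 321)) 55) 31 369 = true := by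
  decide +kernel

theorem sub_56_0 : freeRange 4 (candAt (pairsFrom 0 (Vale.Agent.Lib.P052.adjRows.take 321)) 56) 0 26 = true := by
  decide +kernel

theorem sub_56_26 : freeRange 4 (candAt (pairsFrom 0 (Vale.Agent.Lib.P052.adjRows.take 321)) 56) 26 374 = true := by
  decide +kernel

theorem sub_57_0 : freeRange 4 (candAt (pairsFrom 0 (Vale.Agent.Lib.P052.adjRows.take 321)) 57) 0 28 = true := by
  decide +kernel

end Vale.Agent.Lib.P052.H29
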