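import Vale.Agent.Lib.P052.helper29.CliqueCheck
import Vale.Agent.Lib.P052.lead.Data

/-! Kernel-checked local clique tests for the 321 vertices used, in small blocks. -/

namespace Vale.Agent.Lib.P052.H29

theorem sub_57_28 : freeRange 4 (candAt (pairsFrom 0 (Vale.Agent.Lib.P052.adjRows.take 321)) 57) 28 372 = true := by
  decide +kernel

theorem sub_58_0 : freeRange 4 (candAt (pairsFrom 0 (Vale.Agent.Lib.P052.adjRows.take 321)) 58) 0 25 = true := by
  decide +kernel

theorem sub_58_25 : freeRange 4 (candAt (pairsFrom 0 (Vale.Agent.Lib.P052.adjRows.take 321)) 58) 25 375 = true := by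
  decide +kernel

theorem sub_59_0 : freeRange 4 (candAt (pairsFrom 0 (Vale.Agent.Lib.P052.adjRows.take 321)) 59) 0 27 = true := by
  decide +kernel

theorem sub_59_27 : freeRange 4 (candAt (pairsFrom 0 (Vale.Agent.Lib.P052.adjRows.take 321)) 59) 27 373 = true := by
  decide +kernel

theorem sub_60_0 : freeRange 4 (candAt (pairsFrom 0 (Vale.Agent.Lib.P052.adjRows.take 321)) 60) 0 17 = true := by
  decide +kernel

theorem sub_60_17 : freeRange 4 (candAt (pairsFrom 0 (Vale.Agent.Lib.P052.adjRows.take 321)) 60) 17 383 = true := by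
  decide +kernel

theorem sub_61_0 : freeRange 4 (candAt (pairsFrom 0 (Vale.Agent.Lib.P052.adjRows.take 321)) 61) 0 16 = true := by
  decide +kernel

theorem sub_61_16 : freeRange 4 (candAt (pairsFrom 0 (Vale.Agent.Lib.P052.adjRows.take 321)) 61) 16 384 = true := by
  decide +kernel

theorem sub_62_0 : freeRange 4 (candAt (pairsFrom 0 (Vale.Agent.Lib.P052.adjRows.take 321)) 62) 0 17 = true := by
  decide +kernel

theorem sub_62_17 : freeRange 4 (candAt (pairsFrom 0 (Vale.Agent.Lib.P052.adjRows.take 321)) 62) 17 383 = true := by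
  decide +kernel

theorem sub_63_0 : freeRange 4 (candAt (pairsFrom 0 (Vale.Agent.Lib.P052.adjRows.take 321)) 63) 0 18 = true := by
  decide +kernel

theorem sub_63_18 : freeRange 4 (candAt (pairsFrom 0 (Vale.Agent.Lib.P052.adjRows.take 321)) 63) 18 382 = true := by
  decide +kernel

theorem sub_64_0 : freeRange 4 (candAt (pairsFrom 0 (Vale.Agent.Lib.P052.adjRows.take 321)) 64) 0 21 = true := by
  decide +kernel

theorem sub_64_21 : freeRange 4 (candAt (pairsFrom 0 (Vale.Agent.Lib.P052.adjRows.take 321)) 64) 21 379 = true := by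
  decide +kernel

theorem sub_65_0 : freeRange 4 (candAt (pairsFrom 0 (Vale.Agent.Lib.P052.adjRows.take 321)) 65) 0 19 = true := by
  decide +kernel

theorem sub_65_19 : freeRange 4 (candAt (pairsFrom 0 (Vale.Agent.Lib.P052.adjRows.take 321)) 65) 19 381 = true := by
  decide +kernel

theorem sub_66_0 : freeRange 4 (candAt (pairsFrom 0 (Vale.Agent.Lib.P052.adjRows.take 321)) 66) 0 19 = true := by
  decide +kernel

theorem sub_66_19 : freeRange 4 (candAt (pairsFrom 0 (Vale.Agent.Lib.P052.adjRows.take 321)) 66) 19 381 = true := by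
  decide +kernel

theorem sub_67_0 : freeRange 4 (candAt (pairsFrom 0 (Vale.Agent.Lib.P052.adjRows.take 321)) 67) 0 19 = true := by
  decide +kernel

theorem sub_67_19 : freeRange 4 (candAt (pairsFrom 0 (Vale.Agent.Lib.P052.adjRows.take 321)) 67) 19 381 = true := by
  decide +kernel

theorem sub_68_0 : freeRange 4 (candAt (pairsFrom 0 (Vale.Agent.Lib.P052.adjRows.take 321)) 68) 0 20 = true := by
  decide +kernel

theorem sub_68_20 : freeRange 4 (candAt (pairsFrom 0 (Vale.Agent.Lib.P052.adjRows.take 321)) 68) 20 380 = true := by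
  decide +kernel

theorem sub_69_0 : freeRange 4 (candAt (pairsFrom 0 (Vale.Agent.Lib.P052.adjRows.take 321)) 69) 0 19 = true := by
  decide +kernel

theorem sub_69_19 : freeRange 4 (candAt (pairsFrom 0 (Vale.Agent.Lib.P052.adjRows.take 321)) 69) 19 381 = true := by
  decide +kernel

theorem sub_70_0 : freeRange 4 (candAt (pairsFrom 0 (Vale.Agent.Lib.P052.adjRows.take 321)) 70) 0 22 = true := by
  decide +kernel

theorem sub_70_22 : freeRange 4 (candAt (pairsFrom 0 (Vale.Agent.Lib.P052.adjRows.take 321)) 70) 22 378 = true := by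
  decide +kernel

theorem sub_71_0 : freeRange 4 (candAt (pairsFrom 0 (Vale.Agent.Lib.P052.adjRows.take 321)) 71) 0 21 = true := by
  decide +kernel

theorem sub_71_21 : freeRange 4 (candAt (pairsFrom 0 (Vale.Agent.Lib.P052.adjRows.take 321)) 71) 21 379 = true := by
  decide +kernel

theorem sub_72_0 : freeRange 4 (candAt (pairsFrom 0 (Vale.Agent.Lib.P052.adjRows.take 321)) 72) 0 24 = true := by
  decide +kernel

theorem sub_72_24 : freeRange 4 (candAt (pairsFrom 0 (Vale.Agent.Lib.P052.adjRows.take 321)) 72) 24 376 = true := by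
  decide +kernel

theorem sub_73_0 : freeRange 4 (candAt (pairsFrom 0 (Vale.Agent.Lib.P052.adjRows.take 321)) 73) 0 23 = true := by
  decide +kernel

theorem sub_73_23 : freeRange 4 (candAt (pairsFrom 0 (Vale.Agent.Lib.P052.adjRows.take 321)) 73) 23 377 = true := by
  decide +kernel

theorem sub_74_0 : freeRange 4 (candAt (pairsFrom 0 (Vale.Agent.Lib.P052.adjRows.take 321)) 74) 0 23 = true := by
  decide +kernel

theorem sub_74_23 : freeRange 4 (candAt (pairsFrom 0 (Vale.Agent.Lib.P052.adjRows.take 321)) 74) 23 377 = true := by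
  decide +kernel

theorem sub_75_0 : freeRange 4 (candAt (pairsFrom 0 (Vale.Agent.Lib.P052.adjRows.take 321)) 75) 0 23 = true := by
  decide +kernel

theorem sub_75_23 : freeRange 4 (candAt (pairsFrom 0 (Vale.Agent.Lib.P052.adjRows.take 321)) 75) 23 377 = true := by
  decide +kernel

theorem sub_76_0 : freeRange 4 (candAt (pairsFrom 0 (Vale.Agent.Lib.P052.adjRows.take 321)) 76) 0 30 = true := by
  decide +kernel

theorem sub_76_30 : freeRange 4 (candAt (pairsFrom 0 (Vale.Agent.Lib.P052.adjRows.take 321)) 76) 30 370 = true := by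
  decide +kernel

theorem sub_77_0 : freeRange 4 (candAt (pairsFrom 0 (Vale.Agent.Lib.P052.adjRows.take 321)) 77) 0 31 = true := by
  decide +kernel

end Vale.Agent.Lib.P052.H29
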