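import Vale.Agent.Lib.P052.helper29.CliqueCheck
import Vale.Agent.Lib.P052.lead.Data

/-! Kernel-checked local clique tests for the 321 vertices used, in small blocks. -/

namespace Vale.Agent.Lib.P052.H29

theorem sub_77_31 : freeRange 4 (candAt (pairsFrom 0 (Vale.Agent.Lib.P052.adjRows.take 321)) 77) 31 369 = true := by
  decide +kernel

theorem sub_78_0 : freeRange 4 (candAt (pairsFrom 0 (Vale.Agent.Lib.P052.adjRows.take 321)) 78) 0 31 = true := by
  decide +kernel

theorem sub_78_31 : freeRange 4 (candAt (pairsFrom 0 (Vale.Agent.Lib.P052.adjRows.take 321)) 78) 31 369 = true := by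
  decide +kernel

theorem sub_79_0 : freeRange 4 (candAt (pairsFrom 0 (Vale.Agent.Lib.P052.adjRows.take 321)) 79) 0 33 = true := by
  decide +kernel

theorem sub_79_33 : freeRange 4 (candAt (pairsFrom 0 (Vale.Agent.Lib.P052.adjRows.take 321)) 79) 33 367 = true := by
  decide +kernel

theorem sub_80_0 : freeRange 4 (candAt (pairsFrom 0 (Vale.Agent.Lib.P052.adjRows.take 321)) 80) 0 29 = true := by
  decide +kernel

theorem sub_80_29 : freeRange 4 (candAt (pairsFrom 0 (Vale.Agent.Lib.P052.adjRows.take 321)) 80) 29 371 = true := by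
  decide +kernel

theorem sub_81_0 : freeRange 4 (candAt (pairsFrom 0 (Vale.Agent.Lib.P052.adjRows.take 321)) 81) 0 30 = true := by
  decide +kernel

theorem sub_81_30 : freeRange 4 (candAt (pairsFrom 0 (Vale.Agent.Lib.P052.adjRows.take 321)) 81) 30 370 = true := by
  decide +kernel

theorem sub_82_0 : freeRange 4 (candAt (pairsFrom 0 (Vale.Agent.Lib.P052.adjRows.take 321)) 82) 0 33 = true := by
  decide +kernel

theorem sub_82_33 : freeRange 4 (candAt (pairsFrom 0 (Vale.Agent.Lib.P052.adjRows.take 321)) 82) 33 367 = true := by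
  decide +kernel

theorem sub_83_0 : freeRange 4 (candAt (pairsFrom 0 (Vale.Agent.Lib.P052.adjRows.take 321)) 83) 0 33 = true := by
  decide +kernel

theorem sub_83_33 : freeRange 4 (candAt (pairsFrom 0 (Vale.Agent.Lib.P052.adjRows.take 321)) 83) 33 367 = true := by
  decide +kernel

theorem sub_84_0 : freeRange 4 (candAt (pairsFrom 0 (Vale.Agent.Lib.P052.adjRows.take 321)) 84) 0 400 = true := by
  decide +kernel

theorem sub_85_0 : freeRange 4 (candAt (pairsFrom 0 (Vale.Agent.Lib.P052.adjRows.take 321)) 85) 0 29 = true := by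
  decide +kernel

theorem sub_85_29 : freeRange 4 (candAt (pairsFrom 0 (Vale.Agent.Lib.P052.adjRows.take 321)) 85) 29 371 = true := by
  decide +kernel

theorem sub_86_0 : freeRange 4 (candAt (pairsFrom 0 (Vale.Agent.Lib.P052.adjRows.take 321)) 86) 0 47 = true := by
  decide +kernel

theorem sub_86_47 : freeRange 4 (candAt (pairsFrom 0 (Vale.Agent.Lib.P052.adjRows.take 321)) 86) 47 353 = true := by
  decide +kernel

theorem sub_87_0 : freeRange 4 (candAt (pairsFrom 0 (Vale.Agent.Lib.P052.adjRows.take 321)) 87) 0 42 = true := by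
  decide +kernel

theorem sub_87_42 : freeRange 4 (candAt (pairsFrom 0 (Vale.Agent.Lib.P052.adjRows.take 321)) 87) 42 358 = true := by
  decide +kernel

theorem blk_88 : freeRange 5 (pairsFrom 0 (Vale.Agent.Lib.P052.adjRows.take 321)) 88 1 = true := by
  decide +kernel

theorem blk_89 : freeRange 5 (pairsFrom 0 (Vale.Agent.Lib.P052.adjRows.take 321)) 89 1 = true := by
  decide +kernel

theorem blk_90 : freeRange 5 (pairsFrom 0 (Vale.Agent.Lib.P052.adjRows.take 321)) 90 1 = true := by
  decide +kernel

theorem blk_91 : freeRange 5 (pairsFrom 0 (Vale.Agent.Lib.P052.adjRows.take 321)) 91 1 = true := by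
  decide +kernel

theorem blk_92 : freeRange 5 (pairsFrom 0 (Vale.Agent.Lib.P052.adjRows.take 321)) 92 1 = true := by
  decide +kernel

theorem blk_93 : freeRange 5 (pairsFrom 0 (Vale.Agent.Lib.P052.adjRows.take 321)) 93 1 = true := by
  decide +kernel

theorem blk_94 : freeRange 5 (pairsFrom 0 (Vale.Agent.Lib.P052.adjRows.take 321)) 94 1 = true := by
  decide +kernel

theorem blk_95 : freeRange 5 (pairsFrom 0 (Vale.Agent.Lib.P052.adjRows.take 321)) 95 1 = true := by
  decide +kernel

theorem blk_96 : freeRange 5 (pairsFrom 0 (Vale.Agent.Lib.P052.adjRows.take 321)) 96 1 = true := by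
  decide +kernel

theorem blk_97 : freeRange 5 (pairsFrom 0 (Vale.Agent.Lib.P052.adjRows.take 321)) 97 1 = true := by
  decide +kernel

theorem blk_98 : freeRange 5 (pairsFrom 0 (Vale.Agent.Lib.P052.adjRows.take 321)) 98 1 = true := by
  decide +kernel

theorem blk_99 : freeRange 5 (pairsFrom 0 (Vale.Agent.Lib.P052.adjRows.take 321)) 99 1 = true := by
  decide +kernel

theorem sub_100_0 : freeRange 4 (candAt (pairsFrom 0 (Vale.Agent.Lib.P052.adjRows.take 321)) 100) 0 31 = true := by
  decide +kernel

theorem sub_100_31 : freeRange 4 (candAt (pairsFrom 0 (Vale.Agent.Lib.P052.adjRows.take 321)) 100) 31 369 = true := by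
  decide +kernel

theorem blk_101 : freeRange 5 (pairsFrom 0 (Vale.Agent.Lib.P052.adjRows.take 321)) 101 1 = true := by
  decide +kernel

theorem sub_102_0 : freeRange 4 (candAt (pairsFrom 0 (Vale.Agent.Lib.P052.adjRows.take 321)) 102) 0 45 = true := by
  decide +kernel

theorem sub_102_45 : freeRange 4 (candAt (pairsFrom 0 (Vale.Agent.Lib.P052.adjRows.take 321)) 102) 45 355 = true := by
  decide +kernel

theorem sub_103_0 : freeRange 4 (candAt (pairsFrom 0 (Vale.Agent.Lib.P052.adjRows.take 321)) 103) 0 36 = true := by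
  decide +kernel

theorem sub_103_36 : freeRange 4 (candAt (pairsFrom 0 (Vale.Agent.Lib.P052.adjRows.take 321)) 103) 36 364 = true := by
  decide +kernel

theorem blk_104 : freeRange 5 (pairsFrom 0 (Vale.Agent.Lib.P052.adjRows.take 321)) 104 1 = true := by
  decide +kernel

end Vale.Agent.Lib.P052.H29
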