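import Vale.Agent.Lib.P052.helper29.CliqueCheck
import Vale.Agent.Lib.P052.lead.Data

/-! Kernel-checked local clique tests for the 321 vertices used, in small blocks. -/

namespace Vale.Agent.Lib.P052.H29

theorem blk_105 : freeRange 5 (pairsFrom 0 (Vale.Agent.Lib.P052.adjRows.take 321)) 105 1 = true := by
  decide +kernel

theorem blk_106 : freeRange 5 (pairsFrom 0 (Vale.Agent.Lib.P052.adjRows.take 321)) 106 1 = true := by
  decide +kernel

theorem blk_107 : freeRange 5 (pairsFrom 0 (Vale.Agent.Lib.P052.adjRows.take 321)) 107 1 = true := by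
  decide +kernel

theorem sub_108_0 : freeRange 4 (candAt (pairsFrom 0 (Vale.Agent.Lib.P052.adjRows.take 321)) 108) 0 43 = true := by
  decide +kernel

theorem sub_108_43 : freeRange 4 (candAt (pairsFrom 0 (Vale.Agent.Lib.P052.adjRows.take 321)) 108) 43 357 = true := by
  decide +kernel

theorem blk_109 : freeRange 5 (pairsFrom 0 (Vale.Agent.Lib.P052.adjRows.take 321)) 109 1 = true := by
  decide +kernel

theorem blk_110 : freeRange 5 (pairsFrom 0 (Vale.Agent.Lib.P052.adjRows.take 321)) 110 1 = true := by
  decide +kernel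

theorem blk_111 : freeRange 5 (pairsFrom 0 (Vale.Agent.Lib.P052.adjRows.take 321)) 111 1 = true := by
  decide +kernel

theorem sub_112_0 : freeRange 4 (candAt (pairsFrom 0 (Vale.Agent.Lib.P052.adjRows.take 321)) 112) 0 37 = true := by
  decide +kernel

theorem sub_112_37 : freeRange 4 (candAt (pairsFrom 0 (Vale.Agent.Lib.P052.adjRows.take 321)) 112) 37 363 = true := by
  decide +kernel

theorem sub_113_0 : freeRange 4 (candAt (pairsFrom 0 (Vale.Agent.Lib.P052.adjRows.take 321)) 113) 0 38 = true := by
  decide +kernel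

theorem sub_113_38 : freeRange 4 (candAt (pairsFrom 0 (Vale.Agent.Lib.P052.adjRows.take 321)) 113) 38 362 = true := by
  decide +kernel

theorem blk_114 : freeRange 5 (pairsFrom 0 (Vale.Agent.Lib.P052.adjRows.take 321)) 114 1 = true := by
  decide +kernel

theorem blk_115 : freeRange 5 (pairsFrom 0 (Vale.Agent.Lib.P052.adjRows.take 321)) 115 1 = true := by
  decide +kernel

theorem sub_116_0 : freeRange 4 (candAt (pairsFrom 0 (Vale.Agent.Lib.P052.adjRows.take 321)) 116) 0 34 = true := by
  decide +kernel

theorem sub_116_34 : freeRange 4 (candAt (pairsFrom 0 (Vale.Agent.Lib.P052.adjRows.take 321)) 116) 34 366 = true := by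
  decide +kernel

theorem sub_117_0 : freeRange 4 (candAt (pairsFrom 0 (Vale.Agent.Lib.P052.adjRows.take 321)) 117) 0 34 = true := by
  decide +kernel

theorem sub_117_34 : freeRange 4 (candAt (pairsFrom 0 (Vale.Agent.Lib.P052.adjRows.take 321)) 117) 34 366 = true := by
  decide +kernel

theorem blk_118 : freeRange 5 (pairsFrom 0 (Vale.Agent.Lib.P052.adjRows.take 321)) 118 1 = true := by
  decide +kernel

theorem blk_119 : freeRange 5 (pairsFrom 0 (Vale.Agent.Lib.P052.adjRows.take 321)) 119 1 = true := by
  decide +kernel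

theorem blk_120 : freeRange 5 (pairsFrom 0 (Vale.Agent.Lib.P052.adjRows.take 321)) 120 1 = true := by
  decide +kernel

theorem blk_121 : freeRange 5 (pairsFrom 0 (Vale.Agent.Lib.P052.adjRows.take 321)) 121 1 = true := by
  decide +kernel

theorem blk_122 : freeRange 5 (pairsFrom 0 (Vale.Agent.Lib.P052.adjRows.take 321)) 122 1 = true := by
  decide +kernel

theorem blk_123 : freeRange 5 (pairsFrom 0 (Vale.Agent.Lib.P052.adjRows.take 321)) 123 1 = true := by
  decide +kernel

theorem blk_124 : freeRange 5 (pairsFrom 0 (Vale.Agent.Lib.P052.adjRows.take 321)) 124 1 = true := by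
  decide +kernel

theorem blk_125 : freeRange 5 (pairsFrom 0 (Vale.Agent.Lib.P052.adjRows.take 321)) 125 1 = true := by
  decide +kernel

theorem blk_126 : freeRange 5 (pairsFrom 0 (Vale.Agent.Lib.P052.adjRows.take 321)) 126 1 = true := by
  decide +kernel

theorem blk_127 : freeRange 5 (pairsFrom 0 (Vale.Agent.Lib.P052.adjRows.take 321)) 127 1 = true := by
  decide +kernel

theorem blk_128 : freeRange 5 (pairsFrom 0 (Vale.Agent.Lib.P052.adjRows.take 321)) 128 1 = true := by
  decide +kernel

theorem blk_129 : freeRange 5 (pairsFrom 0 (Vale.Agent.Lib.P052.adjRows.take 321)) 129 1 = true := by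
  decide +kernel

theorem blk_130 : freeRange 5 (pairsFrom 0 (Vale.Agent.Lib.P052.adjRows.take 321)) 130 1 = true := by
  decide +kernel

theorem blk_131 : freeRange 5 (pairsFrom 0 (Vale.Agent.Lib.P052.adjRows.take 321)) 131 1 = true := by
  decide +kernel

theorem blk_132 : freeRange 5 (pairsFrom 0 (Vale.Agent.Lib.P052.adjRows.take 321)) 132 1 = true := by
  decide +kernel

theorem blk_133 : freeRange 5 (pairsFrom 0 (Vale.Agent.Lib.P052.adjRows.take 321)) 133 1 = true := by
  decide +kernel

theorem blk_134 : freeRange 5 (pairsFrom 0 (Vale.Agent.Lib.P052.adjRows.take 321)) 134 1 = true := by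
  decide +kernel

theorem blk_135 : freeRange 5 (pairsFrom 0 (Vale.Agent.Lib.P052.adjRows.take 321)) 135 1 = true := by
  decide +kernel

theorem blk_136 : freeRange 5 (pairsFrom 0 (Vale.Agent.Lib.P052.adjRows.take 321)) 136 1 = true := by
  decide +kernel

theorem blk_137 : freeRange 5 (pairsFrom 0 (Vale.Agent.Lib.P052.adjRows.take 321)) 137 1 = true := by
  decide +kernel

theorem blk_138 : freeRange 5 (pairsFrom 0 (Vale.Agent.Lib.P052.adjRows.take 321)) 138 1 = true := by
  decide +kernel

theorem blk_139 : freeRange 5 (pairsFrom 0 (Vale.Agent.Lib.P052.adjRows.take 321)) 139 1 = true := by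
  decide +kernel

end Vale.Agent.Lib.P052.H29
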