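import Vale.Agent.Lib.P052.helper29.CliqueCheck
import Vale.Agent.Lib.P052.lead.Data

/-! Kernel-checked local clique tests for the 321 vertices used, in small blocks. -/

namespace Vale.Agent.Lib.P052.H29

theorem blk_140 : freeRange 5 (pairsFrom 0 (Vale.Agent.Lib.P052.adjRows.take 321)) 140 1 = true := by
  decide +kernel

theorem blk_141 : freeRange 5 (pairsFrom 0 (Vale.Agent.Lib.P052.adjRows.take 321)) 141 1 = true := by
  decide +kernel

theorem blk_142 : freeRange 5 (pairsFrom 0 (Vale.Agent.Lib.P052.adjRows.take 321)) 142 1 = true := by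
  decide +kernel

theorem blk_143 : freeRange 5 (pairsFrom 0 (Vale.Agent.Lib.P052.adjRows.take 321)) 143 1 = true := by
  decide +kernel

theorem blk_144 : freeRange 5 (pairsFrom 0 (Vale.Agent.Lib.P052.adjRows.take 321)) 144 1 = true := by
  decide +kernel

theorem blk_145 : freeRange 5 (pairsFrom 0 (Vale.Agent.Lib.P052.adjRows.take 321)) 145 1 = true := by
  decide +kernel

theorem blk_146 : freeRange 5 (pairsFrom 0 (Vale.Agent.Lib.P052.adjRows.take 321)) 146 1 = true := by
  decide +kernel

theorem blk_147 : freeRange 5 (pairsFrom 0 (Vale.Agent.Lib.P052.adjRows.take 321)) 147 2 = true := by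
  decide +kernel

theorem blk_149 : freeRange 5 (pairsFrom 0 (Vale.Agent.Lib.P052.adjRows.take 321)) 149 2 = true := by
  decide +kernel

theorem blk_151 : freeRange 5 (pairsFrom 0 (Vale.Agent.Lib.P052.adjRows.take 321)) 151 2 = true := by
  decide +kernel

theorem blk_153 : freeRange 5 (pairsFrom 0 (Vale.Agent.Lib.P052.adjRows.take 321)) 153 2 = true := by
  decide +kernel

theorem blk_155 : freeRange 5 (pairsFrom 0 (Vale.Agent.Lib.P052.adjRows.take 321)) 155 2 = true := by
  decide +kernel

theorem blk_157 : freeRange 5 (pairsFrom 0 (Vale.Agent.Lib.P052.adjRows.take 321)) 157 2 = true := by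
  decide +kernel

theorem blk_159 : freeRange 5 (pairsFrom 0 (Vale.Agent.Lib.P052.adjRows.take 321)) 159 2 = true := by
  decide +kernel

theorem blk_161 : freeRange 5 (pairsFrom 0 (Vale.Agent.Lib.P052.adjRows.take 321)) 161 2 = true := by
  decide +kernel

theorem blk_163 : freeRange 5 (pairsFrom 0 (Vale.Agent.Lib.P052.adjRows.take 321)) 163 2 = true := by
  decide +kernel

theorem blk_165 : freeRange 5 (pairsFrom 0 (Vale.Agent.Lib.P052.adjRows.take 321)) 165 2 = true := by
  decide +kernel

theorem blk_167 : freeRange 5 (pairsFrom 0 (Vale.Agent.Lib.P052.adjRows.take 321)) 167 2 = true := by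
  decide +kernel

theorem blk_169 : freeRange 5 (pairsFrom 0 (Vale.Agent.Lib.P052.adjRows.take 321)) 169 3 = true := by
  decide +kernel

theorem blk_172 : freeRange 5 (pairsFrom 0 (Vale.Agent.Lib.P052.adjRows.take 321)) 172 3 = true := by
  decide +kernel

theorem blk_175 : freeRange 5 (pairsFrom 0 (Vale.Agent.Lib.P052.adjRows.take 321)) 175 4 = true := by
  decide +kernel

theorem blk_179 : freeRange 5 (pairsFrom 0 (Vale.Agent.Lib.P052.adjRows.take 321)) 179 4 = true := by
  decide +kernel

theorem blk_183 : freeRange 5 (pairsFrom 0 (Vale.Agent.Lib.P052.adjRows.take 321)) 183 4 = true := by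
  decide +kernel

theorem blk_187 : freeRange 5 (pairsFrom 0 (Vale.Agent.Lib.P052.adjRows.take 321)) 187 4 = true := by
  decide +kernel

theorem blk_191 : freeRange 5 (pairsFrom 0 (Vale.Agent.Lib.P052.adjRows.take 321)) 191 4 = true := by
  decide +kernel

theorem blk_195 : freeRange 5 (pairsFrom 0 (Vale.Agent.Lib.P052.adjRows.take 321)) 195 7 = true := by
  decide +kernel

theorem blk_202 : freeRange 5 (pairsFrom 0 (Vale.Agent.Lib.P052.adjRows.take 321)) 202 5 = true := by
  decide +kernel

theorem blk_207 : freeRange 5 (pairsFrom 0 (Vale.Agent.Lib.P052.adjRows.take 321)) 207 6 = true := by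
  decide +kernel

theorem blk_213 : freeRange 5 (pairsFrom 0 (Vale.Agent.Lib.P052.adjRows.take 321)) 213 8 = true := by
  decide +kernel

theorem blk_221 : freeRange 5 (pairsFrom 0 (Vale.Agent.Lib.P052.adjRows.take 321)) 221 11 = true := by
  decide +kernel

theorem blk_232 : freeRange 5 (pairsFrom 0 (Vale.Agent.Lib.P052.adjRows.take 321)) 232 16 = true := by
  decide +kernel

theorem blk_248 : freeRange 5 (pairsFrom 0 (Vale.Agent.Lib.P052.adjRows.take 321)) 248 31 = true := by
  decide +kernel

theorem blk_279 : freeRange 5 (pairsFrom 0 (Vale.Agent.Lib.P052.adjRows.take 321)) 279 42 = true := by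
  decide +kernel

end Vale.Agent.Lib.P052.H29
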