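import Vale.Agent.Lib.P052.helper29.ClqA
import Vale.Agent.Lib.P052.helper29.ClqB
import Vale.Agent.Lib.P052.helper29.ClqC
import Vale.Agent.Lib.P052.helper29.ClqD
import Vale.Agent.Lib.P052.helper29.ClqE
import Vale.Agent.Lib.P052.helper29.ClqF
import Vale.Agent.Lib.P052.helper29.ClqG
import Vale.Agent.Lib.P052.helper29.ClqH

/-!
# The clique bound for the 321-point configuration

Every set of pairwise adjacent vertices among the first 321 vertices of the graph given by
`adjRows` has at most five elements; in matrix form: a subset of `T` on which all off-diagonal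
entries of `Nmat` equal `3` has at most five elements.
-/

namespace Vale.Agent.Lib.P052.H29

open Vale.Agent.Lib.P052

theorem length_take : (adjRows.take 321).length = 321 := by decide +kernel

theorem length_pairs : (pairsFrom 0 (adjRows.take 321)).length = 321 := by
  rw [length_pairsFrom, length_take]

theorem heavy_0 : freeAt 5 (pairsFrom 0 (adjRows.take 321)) 0 = true := by
  apply freeAt_of_blocks
  intro j hj
  rw [length_pairs] at hj
  by_cases h0 : j < 11
  · exact freeAt_of_freeRange sub_0_0 (by omega) (by omega)
  by_cases h11 : j < 27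
  · exact freeAt_of_freeRange sub_0_11 (by omega) (by omega)
  exact freeAt_of_freeRange sub_0_27 (by omega) (by omega)

theorem heavy_1 : freeAt 5 (pairsFrom 0 (adjRows.take 321)) 1 = true := by
  apply freeAt_of_blocks
  intro j hj
  rw [length_pairs] at hj
  by_cases h0 : j < 11
  · exact freeAt_of_freeRange sub_1_0 (by omega) (by omega)
  by_cases h11 : j < 27
  · exact freeAt_of_freeRange sub_1_11 (by omega) (by omega)
  exact freeAt_of_freeRange sub_1_27 (by omega) (by omega)

theorem heavy_2 : freeAt 5 (pairsFrom 0 (adjRows.take 321)) 2 = true := by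
  apply freeAt_of_blocks
  intro j hj
  rw [length_pairs] at hj
  by_cases h0 : j < 11
  · exact freeAt_of_freeRange sub_2_0 (by omega) (by omega)
  by_cases h11 : j < 27
  · exact freeAt_of_freeRange sub_2_11 (by omega) (by omega)
  exact freeAt_of_freeRange sub_2_27 (by omega) (by omega)

theorem heavy_3 : freeAt 5 (pairsFrom 0 (adjRows.take 321)) 3 = true := by
  apply freeAt_of_blocks
  intro j hj
  rw [length_pairs] at hj
  by_cases h0 : j < 11
  · exact freeAt_of_freeRange sub_3_0 (by omega) (by omega)
  by_cases h11 : j < 27
  · exact freeAt_of_freeRange sub_3_11 (by omega) (by omega)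
  exact freeAt_of_freeRange sub_3_27 (by omega) (by omega)

theorem heavy_4 : freeAt 5 (pairsFrom 0 (adjRows.take 321)) 4 = true := by
  apply freeAt_of_blocks
  intro j hj
  rw [length_pairs] at hj
  by_cases h0 : j < 11
  · exact freeAt_of_freeRange sub_4_0 (by omega) (by omega)
  by_cases h11 : j < 27
  · exact freeAt_of_freeRange sub_4_11 (by omega) (by omega)
  exact freeAt_of_freeRange sub_4_27 (by omega) (by omega)

theorem heavy_5 : freeAt 5 (pairsFrom 0 (adjRows.take 321)) 5 = true := by
  apply freeAt_of_blocks
  intro j hj
  rw [length_pairs] at hj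
  by_cases h0 : j < 11
  · exact freeAt_of_freeRange sub_5_0 (by omega) (by omega)
  by_cases h11 : j < 27
  · exact freeAt_of_freeRange sub_5_11 (by omega) (by omega)
  exact freeAt_of_freeRange sub_5_27 (by omega) (by omega)

theorem heavy_6 : freeAt 5 (pairsFrom 0 (adjRows.take 321)) 6 = true := by
  apply freeAt_of_blocks
  intro j hj
  rw [length_pairs] at hj
  by_cases h0 : j < 11
  · exact freeAt_of_freeRange sub_6_0 (by omega) (by omega)
  by_cases h11 : j < 27
  · exact freeAt_of_freeRange sub_6_11 (by omega) (by omega)
  exact freeAt_of_freeRange sub_6_27 (by omega) (by omega)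

theorem heavy_7 : freeAt 5 (pairsFrom 0 (adjRows.take 321)) 7 = true := by
  apply freeAt_of_blocks
  intro j hj
  rw [length_pairs] at hj
  by_cases h0 : j < 11
  · exact freeAt_of_freeRange sub_7_0 (by omega) (by omega)
  by_cases h11 : j < 27
  · exact freeAt_of_freeRange sub_7_11 (by omega) (by omega)
  exact freeAt_of_freeRange sub_7_27 (by omega) (by omega)

theorem heavy_8 : freeAt 5 (pairsFrom 0 (adjRows.take 321)) 8 = true := by
  apply freeAt_of_blocks
  intro j hj
  rw [length_pairs] at hj
  by_cases h0 : j < 11
  · exact freeAt_of_freeRange sub_8_0 (by omega) (by omega)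
  by_cases h11 : j < 27
  · exact freeAt_of_freeRange sub_8_11 (by omega) (by omega)
  exact freeAt_of_freeRange sub_8_27 (by omega) (by omega)

theorem heavy_9 : freeAt 5 (pairsFrom 0 (adjRows.take 321)) 9 = true := by
  apply freeAt_of_blocks
  intro j hj
  rw [length_pairs] at hj
  by_cases h0 : j < 11
  · exact freeAt_of_freeRange sub_9_0 (by omega) (by omega)
  by_cases h11 : j < 26
  · exact freeAt_of_freeRange sub_9_11 (by omega) (by omega)
  exact freeAt_of_freeRange sub_9_26 (by omega) (by omega)

theorem heavy_10 : freeAt 5 (pairsFrom 0 (adjRows.take 321)) 10 = true := by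
  apply freeAt_of_blocks
  intro j hj
  rw [length_pairs] at hj
  by_cases h0 : j < 13
  · exact freeAt_of_freeRange sub_10_0 (by omega) (by omega)
  by_cases h13 : j < 36
  · exact freeAt_of_freeRange sub_10_13 (by omega) (by omega)
  exact freeAt_of_freeRange sub_10_36 (by omega) (by omega)

theorem heavy_11 : freeAt 5 (pairsFrom 0 (adjRows.take 321)) 11 = true := by
  apply freeAt_of_blocks
  intro j hj
  rw [length_pairs] at hj
  by_cases h0 : j < 13
  · exact freeAt_of_freeRange sub_11_0 (by omega) (by omega)
  by_cases h13 : j < 35
  · exact freeAt_of_freeRange sub_11_13 (by omega) (by omega)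
  exact freeAt_of_freeRange sub_11_35 (by omega) (by omega)

theorem heavy_12 : freeAt 5 (pairsFrom 0 (adjRows.take 321)) 12 = true := by
  apply freeAt_of_blocks
  intro j hj
  rw [length_pairs] at hj
  by_cases h0 : j < 13
  · exact freeAt_of_freeRange sub_12_0 (by omega) (by omega)
  by_cases h13 : j < 34
  · exact freeAt_of_freeRange sub_12_13 (by omega) (by omega)
  exact freeAt_of_freeRange sub_12_34 (by omega) (by omega)

theorem heavy_13 : freeAt 5 (pairsFrom 0 (adjRows.take 321)) 13 = true := by
  apply freeAt_of_blocks
  intro j hj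
  rw [length_pairs] at hj
  by_cases h0 : j < 12
  · exact freeAt_of_freeRange sub_13_0 (by omega) (by omega)
  by_cases h12 : j < 32
  · exact freeAt_of_freeRange sub_13_12 (by omega) (by omega)
  exact freeAt_of_freeRange sub_13_32 (by omega) (by omega)

theorem heavy_14 : freeAt 5 (pairsFrom 0 (adjRows.take 321)) 14 = true := by
  apply freeAt_of_blocks
  intro j hj
  rw [length_pairs] at hj
  by_cases h0 : j < 13
  · exact freeAt_of_freeRange sub_14_0 (by omega) (by omega)
  by_cases h13 : j < 35
  · exact freeAt_of_freeRange sub_14_13 (by omega) (by omega)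
  exact freeAt_of_freeRange sub_14_35 (by omega) (by omega)

theorem heavy_15 : freeAt 5 (pairsFrom 0 (adjRows.take 321)) 15 = true := by
  apply freeAt_of_blocks
  intro j hj
  rw [length_pairs] at hj
  by_cases h0 : j < 15
  · exact freeAt_of_freeRange sub_15_0 (by omega) (by omega)
  by_cases h15 : j < 54
  · exact freeAt_of_freeRange sub_15_15 (by omega) (by omega)
  exact freeAt_of_freeRange sub_15_54 (by omega) (by omega)

theorem heavy_16 : freeAt 5 (pairsFrom 0 (adjRows.take 321)) 16 = true := by
  apply freeAt_of_blocks
  intro j hj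
  rw [length_pairs] at hj
  by_cases h0 : j < 15
  · exact freeAt_of_freeRange sub_16_0 (by omega) (by omega)
  by_cases h15 : j < 48
  · exact freeAt_of_freeRange sub_16_15 (by omega) (by omega)
  exact freeAt_of_freeRange sub_16_48 (by omega) (by omega)

theorem heavy_17 : freeAt 5 (pairsFrom 0 (adjRows.take 321)) 17 = true := by
  apply freeAt_of_blocks
  intro j hj
  rw [length_pairs] at hj
  by_cases h0 : j < 15
  · exact freeAt_of_freeRange sub_17_0 (by omega) (by omega)
  by_cases h15 : j < 49
  · exact freeAt_of_freeRange sub_17_15 (by omega) (by omega)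
  exact freeAt_of_freeRange sub_17_49 (by omega) (by omega)

theorem heavy_18 : freeAt 5 (pairsFrom 0 (adjRows.take 321)) 18 = true := by
  apply freeAt_of_blocks
  intro j hj
  rw [length_pairs] at hj
  by_cases h0 : j < 15
  · exact freeAt_of_freeRange sub_18_0 (by omega) (by omega)
  by_cases h15 : j < 47
  · exact freeAt_of_freeRange sub_18_15 (by omega) (by omega)
  exact freeAt_of_freeRange sub_18_47 (by omega) (by omega)

theorem heavy_19 : freeAt 5 (pairsFrom 0 (adjRows.take 321)) 19 = true := by
  apply freeAt_of_blocks
  intro j hj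
  rw [length_pairs] at hj
  by_cases h0 : j < 15
  · exact freeAt_of_freeRange sub_19_0 (by omega) (by omega)
  by_cases h15 : j < 47
  · exact freeAt_of_freeRange sub_19_15 (by omega) (by omega)
  exact freeAt_of_freeRange sub_19_47 (by omega) (by omega)

theorem heavy_20 : freeAt 5 (pairsFrom 0 (adjRows.take 321)) 20 = true := by
  apply freeAt_of_blocks
  intro j hj
  rw [length_pairs] at hj
  by_cases h0 : j < 15
  · exact freeAt_of_freeRange sub_20_0 (by omega) (by omega)
  exact freeAt_of_freeRange sub_20_15 (by omega) (by omega)

theorem heavy_21 : freeAt 5 (pairsFrom 0 (adjRows.take 321)) 21 = true := by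
  apply freeAt_of_blocks
  intro j hj
  rw [length_pairs] at hj
  by_cases h0 : j < 14
  · exact freeAt_of_freeRange sub_21_0 (by omega) (by omega)
  exact freeAt_of_freeRange sub_21_14 (by omega) (by omega)

theorem heavy_22 : freeAt 5 (pairsFrom 0 (adjRows.take 321)) 22 = true := by
  apply freeAt_of_blocks
  intro j hj
  rw [length_pairs] at hj
  by_cases h0 : j < 14
  · exact freeAt_of_freeRange sub_22_0 (by omega) (by omega)
  by_cases h14 : j < 54
  · exact freeAt_of_freeRange sub_22_14 (by omega) (by omega)
  exact freeAt_of_freeRange sub_22_54 (by omega) (by omega)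

theorem heavy_23 : freeAt 5 (pairsFrom 0 (adjRows.take 321)) 23 = true := by
  apply freeAt_of_blocks
  intro j hj
  rw [length_pairs] at hj
  by_cases h0 : j < 14
  · exact freeAt_of_freeRange sub_23_0 (by omega) (by omega)
  exact freeAt_of_freeRange sub_23_14 (by omega) (by omega)

theorem heavy_24 : freeAt 5 (pairsFrom 0 (adjRows.take 321)) 24 = true := by
  apply freeAt_of_blocks
  intro j hj
  rw [length_pairs] at hj
  by_cases h0 : j < 14
  · exact freeAt_of_freeRange sub_24_0 (by omega) (by omega)
  by_cases h14 : j < 59
  · exact freeAt_of_freeRange sub_24_14 (by omega) (by omega)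
  exact freeAt_of_freeRange sub_24_59 (by omega) (by omega)

theorem heavy_25 : freeAt 5 (pairsFrom 0 (adjRows.take 321)) 25 = true := by
  apply freeAt_of_blocks
  intro j hj
  rw [length_pairs] at hj
  by_cases h0 : j < 16
  · exact freeAt_of_freeRange sub_25_0 (by omega) (by omega)
  exact freeAt_of_freeRange sub_25_16 (by omega) (by omega)

theorem heavy_26 : freeAt 5 (pairsFrom 0 (adjRows.take 321)) 26 = true := by
  apply freeAt_of_blocks
  intro j hj
  rw [length_pairs] at hj
  by_cases h0 : j < 16
  · exact freeAt_of_freeRange sub_26_0 (by omega) (by omega)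
  exact freeAt_of_freeRange sub_26_16 (by omega) (by omega)

theorem heavy_27 : freeAt 5 (pairsFrom 0 (adjRows.take 321)) 27 = true := by
  apply freeAt_of_blocks
  intro j hj
  rw [length_pairs] at hj
  by_cases h0 : j < 16
  · exact freeAt_of_freeRange sub_27_0 (by omega) (by omega)
  exact freeAt_of_freeRange sub_27_16 (by omega) (by omega)

theorem heavy_28 : freeAt 5 (pairsFrom 0 (adjRows.take 321)) 28 = true := by
  apply freeAt_of_blocks
  intro j hj
  rw [length_pairs] at hj
  by_cases h0 : j < 16
  · exact freeAt_of_freeRange sub_28_0 (by omega) (by omega)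
  exact freeAt_of_freeRange sub_28_16 (by omega) (by omega)

theorem heavy_29 : freeAt 5 (pairsFrom 0 (adjRows.take 321)) 29 = true := by
  apply freeAt_of_blocks
  intro j hj
  rw [length_pairs] at hj
  by_cases h0 : j < 16
  · exact freeAt_of_freeRange sub_29_0 (by omega) (by omega)
  exact freeAt_of_freeRange sub_29_16 (by omega) (by omega)

theorem heavy_30 : freeAt 5 (pairsFrom 0 (adjRows.take 321)) 30 = true := by
  apply freeAt_of_blocks
  intro j hj
  rw [length_pairs] at hj
  by_cases h0 : j < 19
  · exact freeAt_of_freeRange sub_30_0 (by omega) (by omega)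
  exact freeAt_of_freeRange sub_30_19 (by omega) (by omega)

theorem heavy_31 : freeAt 5 (pairsFrom 0 (adjRows.take 321)) 31 = true := by
  apply freeAt_of_blocks
  intro j hj
  rw [length_pairs] at hj
  by_cases h0 : j < 18
  · exact freeAt_of_freeRange sub_31_0 (by omega) (by omega)
  exact freeAt_of_freeRange sub_31_18 (by omega) (by omega)

theorem heavy_32 : freeAt 5 (pairsFrom 0 (adjRows.take 321)) 32 = true := by
  apply freeAt_of_blocks
  intro j hj
  rw [length_pairs] at hj
  by_cases h0 : j < 18
  · exact freeAt_of_freeRange sub_32_0 (by omega) (by omega)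
  exact freeAt_of_freeRange sub_32_18 (by omega) (by omega)

theorem heavy_33 : freeAt 5 (pairsFrom 0 (adjRows.take 321)) 33 = true := by
  apply freeAt_of_blocks
  intro j hj
  rw [length_pairs] at hj
  by_cases h0 : j < 18
  · exact freeAt_of_freeRange sub_33_0 (by omega) (by omega)
  exact freeAt_of_freeRange sub_33_18 (by omega) (by omega)

theorem heavy_34 : freeAt 5 (pairsFrom 0 (adjRows.take 321)) 34 = true := by
  apply freeAt_of_blocks
  intro j hj
  rw [length_pairs] at hj
  by_cases h0 : j < 18
  · exact freeAt_of_freeRange sub_34_0 (by omega) (by omega)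
  exact freeAt_of_freeRange sub_34_18 (by omega) (by omega)

theorem heavy_35 : freeAt 5 (pairsFrom 0 (adjRows.take 321)) 35 = true := by
  apply freeAt_of_blocks
  intro j hj
  rw [length_pairs] at hj
  by_cases h0 : j < 18
  · exact freeAt_of_freeRange sub_35_0 (by omega) (by omega)
  exact freeAt_of_freeRange sub_35_18 (by omega) (by omega)

theorem heavy_36 : freeAt 5 (pairsFrom 0 (adjRows.take 321)) 36 = true := by
  apply freeAt_of_blocks
  intro j hj
  rw [length_pairs] at hj
  by_cases h0 : j < 18
  · exact freeAt_of_freeRange sub_36_0 (by omega) (by omega)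
  exact freeAt_of_freeRange sub_36_18 (by omega) (by omega)

theorem heavy_37 : freeAt 5 (pairsFrom 0 (adjRows.take 321)) 37 = true := by
  apply freeAt_of_blocks
  intro j hj
  rw [length_pairs] at hj
  by_cases h0 : j < 18
  · exact freeAt_of_freeRange sub_37_0 (by omega) (by omega)
  exact freeAt_of_freeRange sub_37_18 (by omega) (by omega)

theorem heavy_38 : freeAt 5 (pairsFrom 0 (adjRows.take 321)) 38 = true := by
  apply freeAt_of_blocks
  intro j hj
  rw [length_pairs] at hj
  by_cases h0 : j < 18
  · exact freeAt_of_freeRange sub_38_0 (by omega) (by omega)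
  exact freeAt_of_freeRange sub_38_18 (by omega) (by omega)

theorem heavy_39 : freeAt 5 (pairsFrom 0 (adjRows.take 321)) 39 = true := by
  apply freeAt_of_blocks
  intro j hj
  rw [length_pairs] at hj
  by_cases h0 : j < 18
  · exact freeAt_of_freeRange sub_39_0 (by omega) (by omega)
  exact freeAt_of_freeRange sub_39_18 (by omega) (by omega)

theorem heavy_40 : freeAt 5 (pairsFrom 0 (adjRows.take 321)) 40 = true := by
  apply freeAt_of_blocks
  intro j hj
  rw [length_pairs] at hj
  by_cases h0 : j < 18
  · exact freeAt_of_freeRange sub_40_0 (by omega) (by omega)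
  exact freeAt_of_freeRange sub_40_18 (by omega) (by omega)

theorem heavy_41 : freeAt 5 (pairsFrom 0 (adjRows.take 321)) 41 = true := by
  apply freeAt_of_blocks
  intro j hj
  rw [length_pairs] at hj
  by_cases h0 : j < 17
  · exact freeAt_of_freeRange sub_41_0 (by omega) (by omega)
  exact freeAt_of_freeRange sub_41_17 (by omega) (by omega)

theorem heavy_42 : freeAt 5 (pairsFrom 0 (adjRows.take 321)) 42 = true := by
  apply freeAt_of_blocks
  intro j hj
  rw [length_pairs] at hj
  by_cases h0 : j < 18
  · exact freeAt_of_freeRange sub_42_0 (by omega) (by omega)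
  exact freeAt_of_freeRange sub_42_18 (by omega) (by omega)

theorem heavy_43 : freeAt 5 (pairsFrom 0 (adjRows.take 321)) 43 = true := by
  apply freeAt_of_blocks
  intro j hj
  rw [length_pairs] at hj
  by_cases h0 : j < 17
  · exact freeAt_of_freeRange sub_43_0 (by omega) (by omega)
  exact freeAt_of_freeRange sub_43_17 (by omega) (by omega)

theorem heavy_44 : freeAt 5 (pairsFrom 0 (adjRows.take 321)) 44 = true := by
  apply freeAt_of_blocks
  intro j hj
  rw [length_pairs] at hj
  by_cases h0 : j < 17
  · exact freeAt_of_freeRange sub_44_0 (by omega) (by omega)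
  exact freeAt_of_freeRange sub_44_17 (by omega) (by omega)

theorem heavy_45 : freeAt 5 (pairsFrom 0 (adjRows.take 321)) 45 = true := by
  apply freeAt_of_blocks
  intro j hj
  rw [length_pairs] at hj
  by_cases h0 : j < 22
  · exact freeAt_of_freeRange sub_45_0 (by omega) (by omega)
  exact freeAt_of_freeRange sub_45_22 (by omega) (by omega)

theorem heavy_46 : freeAt 5 (pairsFrom 0 (adjRows.take 321)) 46 = true := by
  apply freeAt_of_blocks
  intro j hj
  rw [length_pairs] at hj
  by_cases h0 : j < 19
  · exact freeAt_of_freeRange sub_46_0 (by omega) (by omega)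
  exact freeAt_of_freeRange sub_46_19 (by omega) (by omega)

theorem heavy_47 : freeAt 5 (pairsFrom 0 (adjRows.take 321)) 47 = true := by
  apply freeAt_of_blocks
  intro j hj
  rw [length_pairs] at hj
  by_cases h0 : j < 20
  · exact freeAt_of_freeRange sub_47_0 (by omega) (by omega)
  exact freeAt_of_freeRange sub_47_20 (by omega) (by omega)

theorem heavy_48 : freeAt 5 (pairsFrom 0 (adjRows.take 321)) 48 = true := by
  apply freeAt_of_blocks
  intro j hj
  rw [length_pairs] at hj
  by_cases h0 : j < 19
  · exact freeAt_of_freeRange sub_48_0 (by omega) (by omega)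
  exact freeAt_of_freeRange sub_48_19 (by omega) (by omega)

theorem heavy_49 : freeAt 5 (pairsFrom 0 (adjRows.take 321)) 49 = true := by
  apply freeAt_of_blocks
  intro j hj
  rw [length_pairs] at hj
  by_cases h0 : j < 19
  · exact freeAt_of_freeRange sub_49_0 (by omega) (by omega)
  exact freeAt_of_freeRange sub_49_19 (by omega) (by omega)

theorem heavy_50 : freeAt 5 (pairsFrom 0 (adjRows.take 321)) 50 = true := by
  apply freeAt_of_blocks
  intro j hj
  rw [length_pairs] at hj
  by_cases h0 : j < 26
  · exact freeAt_of_freeRange sub_50_0 (by omega) (by omega)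
  exact freeAt_of_freeRange sub_50_26 (by omega) (by omega)

theorem heavy_51 : freeAt 5 (pairsFrom 0 (adjRows.take 321)) 51 = true := by
  apply freeAt_of_blocks
  intro j hj
  rw [length_pairs] at hj
  by_cases h0 : j < 23
  · exact freeAt_of_freeRange sub_51_0 (by omega) (by omega)
  exact freeAt_of_freeRange sub_51_23 (by omega) (by omega)

theorem heavy_52 : freeAt 5 (pairsFrom 0 (adjRows.take 321)) 52 = true := by
  apply freeAt_of_blocks
  intro j hj
  rw [length_pairs] at hj
  by_cases h0 : j < 22
  · exact freeAt_of_freeRange sub_52_0 (by omega) (by omega)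
  exact freeAt_of_freeRange sub_52_22 (by omega) (by omega)

theorem heavy_53 : freeAt 5 (pairsFrom 0 (adjRows.take 321)) 53 = true := by
  apply freeAt_of_blocks
  intro j hj
  rw [length_pairs] at hj
  by_cases h0 : j < 23
  · exact freeAt_of_freeRange sub_53_0 (by omega) (by omega)
  exact freeAt_of_freeRange sub_53_23 (by omega) (by omega)

theorem heavy_54 : freeAt 5 (pairsFrom 0 (adjRows.take 321)) 54 = true := by
  apply freeAt_of_blocks
  intro j hj
  rw [length_pairs] at hj
  by_cases h0 : j < 22
  · exact freeAt_of_freeRange sub_54_0 (by omega) (by omega)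
  exact freeAt_of_freeRange sub_54_22 (by omega) (by omega)

theorem heavy_55 : freeAt 5 (pairsFrom 0 (adjRows.take 321)) 55 = true := by
  apply freeAt_of_blocks
  intro j hj
  rw [length_pairs] at hj
  by_cases h0 : j < 31
  · exact freeAt_of_freeRange sub_55_0 (by omega) (by omega)
  exact freeAt_of_freeRange sub_55_31 (by omega) (by omega)

theorem heavy_56 : freeAt 5 (pairsFrom 0 (adjRows.take 321)) 56 = true := by
  apply freeAt_of_blocks
  intro j hj
  rw [length_pairs] at hj
  by_cases h0 : j < 26
  · exact freeAt_of_freeRange sub_56_0 (by omega) (by omega)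
  exact freeAt_of_freeRange sub_56_26 (by omega) (by omega)

theorem heavy_57 : freeAt 5 (pairsFrom 0 (adjRows.take 321)) 57 = true := by
  apply freeAt_of_blocks
  intro j hj
  rw [length_pairs] at hj
  by_cases h0 : j < 28
  · exact freeAt_of_freeRange sub_57_0 (by omega) (by omega)
  exact freeAt_of_freeRange sub_57_28 (by omega) (by omega)

theorem heavy_58 : freeAt 5 (pairsFrom 0 (adjRows.take 321)) 58 = true := by
  apply freeAt_of_blocks
  intro j hj
  rw [length_pairs] at hj
  by_cases h0 : j < 25
  · exact freeAt_of_freeRange sub_58_0 (by omega) (by omega)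
  exact freeAt_of_freeRange sub_58_25 (by omega) (by omega)

theorem heavy_59 : freeAt 5 (pairsFrom 0 (adjRows.take 321)) 59 = true := by
  apply freeAt_of_blocks
  intro j hj
  rw [length_pairs] at hj
  by_cases h0 : j < 27
  · exact freeAt_of_freeRange sub_59_0 (by omega) (by omega)
  exact freeAt_of_freeRange sub_59_27 (by omega) (by omega)

theorem heavy_60 : freeAt 5 (pairsFrom 0 (adjRows.take 321)) 60 = true := by
  apply freeAt_of_blocks
  intro j hj
  rw [length_pairs] at hj
  by_cases h0 : j < 17
  · exact freeAt_of_freeRange sub_60_0 (by omega) (by omega)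
  exact freeAt_of_freeRange sub_60_17 (by omega) (by omega)

theorem heavy_61 : freeAt 5 (pairsFrom 0 (adjRows.take 321)) 61 = true := by
  apply freeAt_of_blocks
  intro j hj
  rw [length_pairs] at hj
  by_cases h0 : j < 16
  · exact freeAt_of_freeRange sub_61_0 (by omega) (by omega)
  exact freeAt_of_freeRange sub_61_16 (by omega) (by omega)

theorem heavy_62 : freeAt 5 (pairsFrom 0 (adjRows.take 321)) 62 = true := by
  apply freeAt_of_blocks
  intro j hj
  rw [length_pairs] at hj
  by_cases h0 : j < 17
  · exact freeAt_of_freeRange sub_62_0 (by omega) (by omega)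
  exact freeAt_of_freeRange sub_62_17 (by omega) (by omega)

theorem heavy_63 : freeAt 5 (pairsFrom 0 (adjRows.take 321)) 63 = true := by
  apply freeAt_of_blocks
  intro j hj
  rw [length_pairs] at hj
  by_cases h0 : j < 18
  · exact freeAt_of_freeRange sub_63_0 (by omega) (by omega)
  exact freeAt_of_freeRange sub_63_18 (by omega) (by omega)

theorem heavy_64 : freeAt 5 (pairsFrom 0 (adjRows.take 321)) 64 = true := by
  apply freeAt_of_blocks
  intro j hj
  rw [length_pairs] at hj
  by_cases h0 : j < 21
  · exact freeAt_of_freeRange sub_64_0 (by omega) (by omega)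
  exact freeAt_of_freeRange sub_64_21 (by omega) (by omega)

theorem heavy_65 : freeAt 5 (pairsFrom 0 (adjRows.take 321)) 65 = true := by
  apply freeAt_of_blocks
  intro j hj
  rw [length_pairs] at hj
  by_cases h0 : j < 19
  · exact freeAt_of_freeRange sub_65_0 (by omega) (by omega)
  exact freeAt_of_freeRange sub_65_19 (by omega) (by omega)

theorem heavy_66 : freeAt 5 (pairsFrom 0 (adjRows.take 321)) 66 = true := by
  apply freeAt_of_blocks
  intro j hj
  rw [length_pairs] at hj
  by_cases h0 : j < 19
  · exact freeAt_of_freeRange sub_66_0 (by omega) (by omega)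
  exact freeAt_of_freeRange sub_66_19 (by omega) (by omega)

theorem heavy_67 : freeAt 5 (pairsFrom 0 (adjRows.take 321)) 67 = true := by
  apply freeAt_of_blocks
  intro j hj
  rw [length_pairs] at hj
  by_cases h0 : j < 19
  · exact freeAt_of_freeRange sub_67_0 (by omega) (by omega)
  exact freeAt_of_freeRange sub_67_19 (by omega) (by omega)

theorem heavy_68 : freeAt 5 (pairsFrom 0 (adjRows.take 321)) 68 = true := by
  apply freeAt_of_blocks
  intro j hj
  rw [length_pairs] at hj
  by_cases h0 : j < 20
  · exact freeAt_of_freeRange sub_68_0 (by omega) (by omega)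
  exact freeAt_of_freeRange sub_68_20 (by omega) (by omega)

theorem heavy_69 : freeAt 5 (pairsFrom 0 (adjRows.take 321)) 69 = true := by
  apply freeAt_of_blocks
  intro j hj
  rw [length_pairs] at hj
  by_cases h0 : j < 19
  · exact freeAt_of_freeRange sub_69_0 (by omega) (by omega)
  exact freeAt_of_freeRange sub_69_19 (by omega) (by omega)

theorem heavy_70 : freeAt 5 (pairsFrom 0 (adjRows.take 321)) 70 = true := by
  apply freeAt_of_blocks
  intro j hj
  rw [length_pairs] at hj
  by_cases h0 : j < 22
  · exact freeAt_of_freeRange sub_70_0 (by omega) (by omega)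
  exact freeAt_of_freeRange sub_70_22 (by omega) (by omega)

theorem heavy_71 : freeAt 5 (pairsFrom 0 (adjRows.take 321)) 71 = true := by
  apply freeAt_of_blocks
  intro j hj
  rw [length_pairs] at hj
  by_cases h0 : j < 21
  · exact freeAt_of_freeRange sub_71_0 (by omega) (by omega)
  exact freeAt_of_freeRange sub_71_21 (by omega) (by omega)

theorem heavy_72 : freeAt 5 (pairsFrom 0 (adjRows.take 321)) 72 = true := by
  apply freeAt_of_blocks
  intro j hj
  rw [length_pairs] at hj
  by_cases h0 : j < 24
  · exact freeAt_of_freeRange sub_72_0 (by omega) (by omega)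
  exact freeAt_of_freeRange sub_72_24 (by omega) (by omega)

theorem heavy_73 : freeAt 5 (pairsFrom 0 (adjRows.take 321)) 73 = true := by
  apply freeAt_of_blocks
  intro j hj
  rw [length_pairs] at hj
  by_cases h0 : j < 23
  · exact freeAt_of_freeRange sub_73_0 (by omega) (by omega)
  exact freeAt_of_freeRange sub_73_23 (by omega) (by omega)

theorem heavy_74 : freeAt 5 (pairsFrom 0 (adjRows.take 321)) 74 = true := by
  apply freeAt_of_blocks
  intro j hj
  rw [length_pairs] at hj
  by_cases h0 : j < 23
  · exact freeAt_of_freeRange sub_74_0 (by omega) (by omega)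
  exact freeAt_of_freeRange sub_74_23 (by omega) (by omega)

theorem heavy_75 : freeAt 5 (pairsFrom 0 (adjRows.take 321)) 75 = true := by
  apply freeAt_of_blocks
  intro j hj
  rw [length_pairs] at hj
  by_cases h0 : j < 23
  · exact freeAt_of_freeRange sub_75_0 (by omega) (by omega)
  exact freeAt_of_freeRange sub_75_23 (by omega) (by omega)

theorem heavy_76 : freeAt 5 (pairsFrom 0 (adjRows.take 321)) 76 = true := by
  apply freeAt_of_blocks
  intro j hj
  rw [length_pairs] at hj
  by_cases h0 : j < 30
  · exact freeAt_of_freeRange sub_76_0 (by omega) (by omega)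
  exact freeAt_of_freeRange sub_76_30 (by omega) (by omega)

theorem heavy_77 : freeAt 5 (pairsFrom 0 (adjRows.take 321)) 77 = true := by
  apply freeAt_of_blocks
  intro j hj
  rw [length_pairs] at hj
  by_cases h0 : j < 31
  · exact freeAt_of_freeRange sub_77_0 (by omega) (by omega)
  exact freeAt_of_freeRange sub_77_31 (by omega) (by omega)

theorem heavy_78 : freeAt 5 (pairsFrom 0 (adjRows.take 321)) 78 = true := by
  apply freeAt_of_blocks
  intro j hj
  rw [length_pairs] at hj
  by_cases h0 : j < 31
  · exact freeAt_of_freeRange sub_78_0 (by omega) (by omega)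
  exact freeAt_of_freeRange sub_78_31 (by omega) (by omega)

theorem heavy_79 : freeAt 5 (pairsFrom 0 (adjRows.take 321)) 79 = true := by
  apply freeAt_of_blocks
  intro j hj
  rw [length_pairs] at hj
  by_cases h0 : j < 33
  · exact freeAt_of_freeRange sub_79_0 (by omega) (by omega)
  exact freeAt_of_freeRange sub_79_33 (by omega) (by omega)

theorem heavy_80 : freeAt 5 (pairsFrom 0 (adjRows.take 321)) 80 = true := by
  apply freeAt_of_blocks
  intro j hj
  rw [length_pairs] at hj
  by_cases h0 : j < 29
  · exact freeAt_of_freeRange sub_80_0 (by omega) (by omega)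
  exact freeAt_of_freeRange sub_80_29 (by omega) (by omega)

theorem heavy_81 : freeAt 5 (pairsFrom 0 (adjRows.take 321)) 81 = true := by
  apply freeAt_of_blocks
  intro j hj
  rw [length_pairs] at hj
  by_cases h0 : j < 30
  · exact freeAt_of_freeRange sub_81_0 (by omega) (by omega)
  exact freeAt_of_freeRange sub_81_30 (by omega) (by omega)

theorem heavy_82 : freeAt 5 (pairsFrom 0 (adjRows.take 321)) 82 = true := by
  apply freeAt_of_blocks
  intro j hj
  rw [length_pairs] at hj
  by_cases h0 : j < 33
  · exact freeAt_of_freeRange sub_82_0 (by omega) (by omega)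
  exact freeAt_of_freeRange sub_82_33 (by omega) (by omega)

theorem heavy_83 : freeAt 5 (pairsFrom 0 (adjRows.take 321)) 83 = true := by
  apply freeAt_of_blocks
  intro j hj
  rw [length_pairs] at hj
  by_cases h0 : j < 33
  · exact freeAt_of_freeRange sub_83_0 (by omega) (by omega)
  exact freeAt_of_freeRange sub_83_33 (by omega) (by omega)

theorem heavy_84 : freeAt 5 (pairsFrom 0 (adjRows.take 321)) 84 = true := by
  apply freeAt_of_blocks
  intro j hj
  rw [length_pairs] at hj
  exact freeAt_of_freeRange sub_84_0 (by omega) (by omega)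

theorem heavy_85 : freeAt 5 (pairsFrom 0 (adjRows.take 321)) 85 = true := by
  apply freeAt_of_blocks
  intro j hj
  rw [length_pairs] at hj
  by_cases h0 : j < 29
  · exact freeAt_of_freeRange sub_85_0 (by omega) (by omega)
  exact freeAt_of_freeRange sub_85_29 (by omega) (by omega)

theorem heavy_86 : freeAt 5 (pairsFrom 0 (adjRows.take 321)) 86 = true := by
  apply freeAt_of_blocks
  intro j hj
  rw [length_pairs] at hj
  by_cases h0 : j < 47
  · exact freeAt_of_freeRange sub_86_0 (by omega) (by omega)
  exact freeAt_of_freeRange sub_86_47 (by omega) (by omega)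

theorem heavy_87 : freeAt 5 (pairsFrom 0 (adjRows.take 321)) 87 = true := by
  apply freeAt_of_blocks
  intro j hj
  rw [length_pairs] at hj
  by_cases h0 : j < 42
  · exact freeAt_of_freeRange sub_87_0 (by omega) (by omega)
  exact freeAt_of_freeRange sub_87_42 (by omega) (by omega)

theorem heavy_100 : freeAt 5 (pairsFrom 0 (adjRows.take 321)) 100 = true := by
  apply freeAt_of_blocks
  intro j hj
  rw [length_pairs] at hj
  by_cases h0 : j < 31
  · exact freeAt_of_freeRange sub_100_0 (by omega) (by omega)
  exact freeAt_of_freeRange sub_100_31 (by omega) (by omega)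

theorem heavy_102 : freeAt 5 (pairsFrom 0 (adjRows.take 321)) 102 = true := by
  apply freeAt_of_blocks
  intro j hj
  rw [length_pairs] at hj
  by_cases h0 : j < 45
  · exact freeAt_of_freeRange sub_102_0 (by omega) (by omega)
  exact freeAt_of_freeRange sub_102_45 (by omega) (by omega)

theorem heavy_103 : freeAt 5 (pairsFrom 0 (adjRows.take 321)) 103 = true := by
  apply freeAt_of_blocks
  intro j hj
  rw [length_pairs] at hj
  by_cases h0 : j < 36
  · exact freeAt_of_freeRange sub_103_0 (by omega) (by omega)
  exact freeAt_of_freeRange sub_103_36 (by omega) (by omega)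

theorem heavy_108 : freeAt 5 (pairsFrom 0 (adjRows.take 321)) 108 = true := by
  apply freeAt_of_blocks
  intro j hj
  rw [length_pairs] at hj
  by_cases h0 : j < 43
  · exact freeAt_of_freeRange sub_108_0 (by omega) (by omega)
  exact freeAt_of_freeRange sub_108_43 (by omega) (by omega)

theorem heavy_112 : freeAt 5 (pairsFrom 0 (adjRows.take 321)) 112 = true := by
  apply freeAt_of_blocks
  intro j hj
  rw [length_pairs] at hj
  by_cases h0 : j < 37
  · exact freeAt_of_freeRange sub_112_0 (by omega) (by omega)
  exact freeAt_of_freeRange sub_112_37 (by omega) (by omega)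

theorem heavy_113 : freeAt 5 (pairsFrom 0 (adjRows.take 321)) 113 = true := by
  apply freeAt_of_blocks
  intro j hj
  rw [length_pairs] at hj
  by_cases h0 : j < 38
  · exact freeAt_of_freeRange sub_113_0 (by omega) (by omega)
  exact freeAt_of_freeRange sub_113_38 (by omega) (by omega)

theorem heavy_116 : freeAt 5 (pairsFrom 0 (adjRows.take 321)) 116 = true := by
  apply freeAt_of_blocks
  intro j hj
  rw [length_pairs] at hj
  by_cases h0 : j < 34
  · exact freeAt_of_freeRange sub_116_0 (by omega) (by omega)
  exact freeAt_of_freeRange sub_116_34 (by omega) (by omega)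

theorem heavy_117 : freeAt 5 (pairsFrom 0 (adjRows.take 321)) 117 = true := by
  apply freeAt_of_blocks
  intro j hj
  rw [length_pairs] at hj
  by_cases h0 : j < 34
  · exact freeAt_of_freeRange sub_117_0 (by omega) (by omega)
  exact freeAt_of_freeRange sub_117_34 (by omega) (by omega)

theorem all_freeAt : ∀ i < (adjRows.take 321).length,
    freeAt 5 (pairsFrom 0 (adjRows.take 321)) i = true := by
  intro i hi
  rw [length_take] at hi
  by_cases h0 : i < 1
  · have hv : i = 0 := by omega
    rw [hv]
    exact heavy_0
  by_cases h1 : i < 2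
  · have hv : i = 1 := by omega
    rw [hv]
    exact heavy_1
  by_cases h2 : i < 3
  · have hv : i = 2 := by omega
    rw [hv]
    exact heavy_2
  by_cases h3 : i < 4
  · have hv : i = 3 := by omega
    rw [hv]
    exact heavy_3
  by_cases h4 : i < 5
  · have hv : i = 4 := by omega
    rw [hv]
    exact heavy_4
  by_cases h5 : i < 6
  · have hv : i = 5 := by omega
    rw [hv]
    exact heavy_5
  by_cases h6 : i < 7
  · have hv : i = 6 := by omega
    rw [hv]
    exact heavy_6
  by_cases h7 : i < 8
  · have hv : i = 7 := by omega
    rw [hv]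
    exact heavy_7
  by_cases h8 : i < 9
  · have hv : i = 8 := by omega
    rw [hv]
    exact heavy_8
  by_cases h9 : i < 10
  · have hv : i = 9 := by omega
    rw [hv]
    exact heavy_9
  by_cases h10 : i < 11
  · have hv : i = 10 := by omega
    rw [hv]
    exact heavy_10
  by_cases h11 : i < 12
  · have hv : i = 11 := by omega
    rw [hv]
    exact heavy_11
  by_cases h12 : i < 13
  · have hv : i = 12 := by omega
    rw [hv]
    exact heavy_12
  by_cases h13 : i < 14
  · have hv : i = 13 := by omega
    rw [hv]
    exact heavy_13
  by_cases h14 : i < 15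
  · have hv : i = 14 := by omega
    rw [hv]
    exact heavy_14
  by_cases h15 : i < 16
  · have hv : i = 15 := by omega
    rw [hv]
    exact heavy_15
  by_cases h16 : i < 17
  · have hv : i = 16 := by omega
    rw [hv]
    exact heavy_16
  by_cases h17 : i < 18
  · have hv : i = 17 := by omega
    rw [hv]
    exact heavy_17
  by_cases h18 : i < 19
  · have hv : i = 18 := by omega
    rw [hv]
    exact heavy_18
  by_cases h19 : i < 20
  · have hv : i = 19 := by omega
    rw [hv]
    exact heavy_19
  by_cases h20 : i < 21
  · have hv : i = 20 := by omega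
    rw [hv]
    exact heavy_20
  by_cases h21 : i < 22
  · have hv : i = 21 := by omega
    rw [hv]
    exact heavy_21
  by_cases h22 : i < 23
  · have hv : i = 22 := by omega
    rw [hv]
    exact heavy_22
  by_cases h23 : i < 24
  · have hv : i = 23 := by omega
    rw [hv]
    exact heavy_23
  by_cases h24 : i < 25
  · have hv : i = 24 := by omega
    rw [hv]
    exact heavy_24
  by_cases h25 : i < 26
  · have hv : i = 25 := by omega
    rw [hv]
    exact heavy_25
  by_cases h26 : i < 27
  · have hv : i = 26 := by omega
    rw [hv]
    exact heavy_26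
  by_cases h27 : i < 28
  · have hv : i = 27 := by omega
    rw [hv]
    exact heavy_27
  by_cases h28 : i < 29
  · have hv : i = 28 := by omega
    rw [hv]
    exact heavy_28
  by_cases h29 : i < 30
  · have hv : i = 29 := by omega
    rw [hv]
    exact heavy_29
  by_cases h30 : i < 31
  · have hv : i = 30 := by omega
    rw [hv]
    exact heavy_30
  by_cases h31 : i < 32
  · have hv : i = 31 := by omega
    rw [hv]
    exact heavy_31
  by_cases h32 : i < 33
  · have hv : i = 32 := by omega
    rw [hv]
    exact heavy_32
  by_cases h33 : i < 34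
  · have hv : i = 33 := by omega
    rw [hv]
    exact heavy_33
  by_cases h34 : i < 35
  · have hv : i = 34 := by omega
    rw [hv]
    exact heavy_34
  by_cases h35 : i < 36
  · have hv : i = 35 := by omega
    rw [hv]
    exact heavy_35
  by_cases h36 : i < 37
  · have hv : i = 36 := by omega
    rw [hv]
    exact heavy_36
  by_cases h37 : i < 38
  · have hv : i = 37 := by omega
    rw [hv]
    exact heavy_37
  by_cases h38 : i < 39
  · have hv : i = 38 := by omega
    rw [hv]
    exact heavy_38
  by_cases h39 : i < 40
  · have hv : i = 39 := by omega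
    rw [hv]
    exact heavy_39
  by_cases h40 : i < 41
  · have hv : i = 40 := by omega
    rw [hv]
    exact heavy_40
  by_cases h41 : i < 42
  · have hv : i = 41 := by omega
    rw [hv]
    exact heavy_41
  by_cases h42 : i < 43
  · have hv : i = 42 := by omega
    rw [hv]
    exact heavy_42
  by_cases h43 : i < 44
  · have hv : i = 43 := by omega
    rw [hv]
    exact heavy_43
  by_cases h44 : i < 45
  · have hv : i = 44 := by omega
    rw [hv]
    exact heavy_44
  by_cases h45 : i < 46
  · have hv : i = 45 := by omega
    rw [hv]
    exact heavy_45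
  by_cases h46 : i < 47
  · have hv : i = 46 := by omega
    rw [hv]
    exact heavy_46
  by_cases h47 : i < 48
  · have hv : i = 47 := by omega
    rw [hv]
    exact heavy_47
  by_cases h48 : i < 49
  · have hv : i = 48 := by omega
    rw [hv]
    exact heavy_48
  by_cases h49 : i < 50
  · have hv : i = 49 := by omega
    rw [hv]
    exact heavy_49
  by_cases h50 : i < 51
  · have hv : i = 50 := by omega
    rw [hv]
    exact heavy_50
  by_cases h51 : i < 52
  · have hv : i = 51 := by omega
    rw [hv]
    exact heavy_51
  by_cases h52 : i < 53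
  · have hv : i = 52 := by omega
    rw [hv]
    exact heavy_52
  by_cases h53 : i < 54
  · have hv : i = 53 := by omega
    rw [hv]
    exact heavy_53
  by_cases h54 : i < 55
  · have hv : i = 54 := by omega
    rw [hv]
    exact heavy_54
  by_cases h55 : i < 56
  · have hv : i = 55 := by omega
    rw [hv]
    exact heavy_55
  by_cases h56 : i < 57
  · have hv : i = 56 := by omega
    rw [hv]
    exact heavy_56
  by_cases h57 : i < 58
  · have hv : i = 57 := by omega
    rw [hv]
    exact heavy_57
  by_cases h58 : i < 59
  · have hv : i = 58 := by omega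
    rw [hv]
    exact heavy_58
  by_cases h59 : i < 60
  · have hv : i = 59 := by omega
    rw [hv]
    exact heavy_59
  by_cases h60 : i < 61
  · have hv : i = 60 := by omega
    rw [hv]
    exact heavy_60
  by_cases h61 : i < 62
  · have hv : i = 61 := by omega
    rw [hv]
    exact heavy_61
  by_cases h62 : i < 63
  · have hv : i = 62 := by omega
    rw [hv]
    exact heavy_62
  by_cases h63 : i < 64
  · have hv : i = 63 := by omega
    rw [hv]
    exact heavy_63
  by_cases h64 : i < 65
  · have hv : i = 64 := by omega
    rw [hv]
    exact heavy_64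
  by_cases h65 : i < 66
  · have hv : i = 65 := by omega
    rw [hv]
    exact heavy_65
  by_cases h66 : i < 67
  · have hv : i = 66 := by omega
    rw [hv]
    exact heavy_66
  by_cases h67 : i < 68
  · have hv : i = 67 := by omega
    rw [hv]
    exact heavy_67
  by_cases h68 : i < 69
  · have hv : i = 68 := by omega
    rw [hv]
    exact heavy_68
  by_cases h69 : i < 70
  · have hv : i = 69 := by omega
    rw [hv]
    exact heavy_69
  by_cases h70 : i < 71
  · have hv : i = 70 := by omega
    rw [hv]
    exact heavy_70
  by_cases h71 : i < 72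
  · have hv : i = 71 := by omega
    rw [hv]
    exact heavy_71
  by_cases h72 : i < 73
  · have hv : i = 72 := by omega
    rw [hv]
    exact heavy_72
  by_cases h73 : i < 74
  · have hv : i = 73 := by omega
    rw [hv]
    exact heavy_73
  by_cases h74 : i < 75
  · have hv : i = 74 := by omega
    rw [hv]
    exact heavy_74
  by_cases h75 : i < 76
  · have hv : i = 75 := by omega
    rw [hv]
    exact heavy_75
  by_cases h76 : i < 77
  · have hv : i = 76 := by omega
    rw [hv]
    exact heavy_76
  by_cases h77 : i < 78
  · have hv : i = 77 := by omega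
    rw [hv]
    exact heavy_77
  by_cases h78 : i < 79
  · have hv : i = 78 := by omega
    rw [hv]
    exact heavy_78
  by_cases h79 : i < 80
  · have hv : i = 79 := by omega
    rw [hv]
    exact heavy_79
  by_cases h80 : i < 81
  · have hv : i = 80 := by omega
    rw [hv]
    exact heavy_80
  by_cases h81 : i < 82
  · have hv : i = 81 := by omega
    rw [hv]
    exact heavy_81
  by_cases h82 : i < 83
  · have hv : i = 82 := by omega
    rw [hv]
    exact heavy_82
  by_cases h83 : i < 84
  · have hv : i = 83 := by omega
    rw [hv]
    exact heavy_83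
  by_cases h84 : i < 85
  · have hv : i = 84 := by omega
    rw [hv]
    exact heavy_84
  by_cases h85 : i < 86
  · have hv : i = 85 := by omega
    rw [hv]
    exact heavy_85
  by_cases h86 : i < 87
  · have hv : i = 86 := by omega
    rw [hv]
    exact heavy_86
  by_cases h87 : i < 88
  · have hv : i = 87 := by omega
    rw [hv]
    exact heavy_87
  by_cases h88 : i < 89
  · exact freeAt_of_freeRange blk_88 (by omega) (by omega)
  by_cases h89 : i < 90
  · exact freeAt_of_freeRange blk_89 (by omega) (by omega)
  by_cases h90 : i < 91
  · exact freeAt_of_freeRange blk_90 (by omega) (by omega)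
  by_cases h91 : i < 92
  · exact freeAt_of_freeRange blk_91 (by omega) (by omega)
  by_cases h92 : i < 93
  · exact freeAt_of_freeRange blk_92 (by omega) (by omega)
  by_cases h93 : i < 94
  · exact freeAt_of_freeRange blk_93 (by omega) (by omega)
  by_cases h94 : i < 95
  · exact freeAt_of_freeRange blk_94 (by omega) (by omega)
  by_cases h95 : i < 96
  · exact freeAt_of_freeRange blk_95 (by omega) (by omega)
  by_cases h96 : i < 97
  · exact freeAt_of_freeRange blk_96 (by omega) (by omega)
  by_cases h97 : i < 98
  · exact freeAt_of_freeRange blk_97 (by omega) (by omega)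
  by_cases h98 : i < 99
  · exact freeAt_of_freeRange blk_98 (by omega) (by omega)
  by_cases h99 : i < 100
  · exact freeAt_of_freeRange blk_99 (by omega) (by omega)
  by_cases h100 : i < 101
  · have hv : i = 100 := by omega
    rw [hv]
    exact heavy_100
  by_cases h101 : i < 102
  · exact freeAt_of_freeRange blk_101 (by omega) (by omega)
  by_cases h102 : i < 103
  · have hv : i = 102 := by omega
    rw [hv]
    exact heavy_102
  by_cases h103 : i < 104
  · have hv : i = 103 := by omega
    rw [hv]
    exact heavy_103
  by_cases h104 : i < 105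
  · exact freeAt_of_freeRange blk_104 (by omega) (by omega)
  by_cases h105 : i < 106
  · exact freeAt_of_freeRange blk_105 (by omega) (by omega)
  by_cases h106 : i < 107
  · exact freeAt_of_freeRange blk_106 (by omega) (by omega)
  by_cases h107 : i < 108
  · exact freeAt_of_freeRange blk_107 (by omega) (by omega)
  by_cases h108 : i < 109
  · have hv : i = 108 := by omega
    rw [hv]
    exact heavy_108
  by_cases h109 : i < 110
  · exact freeAt_of_freeRange blk_109 (by omega) (by omega)
  by_cases h110 : i < 111
  · exact freeAt_of_freeRange blk_110 (by omega) (by omega)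
  by_cases h111 : i < 112
  · exact freeAt_of_freeRange blk_111 (by omega) (by omega)
  by_cases h112 : i < 113
  · have hv : i = 112 := by omega
    rw [hv]
    exact heavy_112
  by_cases h113 : i < 114
  · have hv : i = 113 := by omega
    rw [hv]
    exact heavy_113
  by_cases h114 : i < 115
  · exact freeAt_of_freeRange blk_114 (by omega) (by omega)
  by_cases h115 : i < 116
  · exact freeAt_of_freeRange blk_115 (by omega) (by omega)
  by_cases h116 : i < 117
  · have hv : i = 116 := by omega
    rw [hv]
    exact heavy_116
  by_cases h117 : i < 118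
  · have hv : i = 117 := by omega
    rw [hv]
    exact heavy_117
  by_cases h118 : i < 119
  · exact freeAt_of_freeRange blk_118 (by omega) (by omega)
  by_cases h119 : i < 120
  · exact freeAt_of_freeRange blk_119 (by omega) (by omega)
  by_cases h120 : i < 121
  · exact freeAt_of_freeRange blk_120 (by omega) (by omega)
  by_cases h121 : i < 122
  · exact freeAt_of_freeRange blk_121 (by omega) (by omega)
  by_cases h122 : i < 123
  · exact freeAt_of_freeRange blk_122 (by omega) (by omega)
  by_cases h123 : i < 124
  · exact freeAt_of_freeRange blk_123 (by omega) (by omega)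
  by_cases h124 : i < 125
  · exact freeAt_of_freeRange blk_124 (by omega) (by omega)
  by_cases h125 : i < 126
  · exact freeAt_of_freeRange blk_125 (by omega) (by omega)
  by_cases h126 : i < 127
  · exact freeAt_of_freeRange blk_126 (by omega) (by omega)
  by_cases h127 : i < 128
  · exact freeAt_of_freeRange blk_127 (by omega) (by omega)
  by_cases h128 : i < 129
  · exact freeAt_of_freeRange blk_128 (by omega) (by omega)
  by_cases h129 : i < 130
  · exact freeAt_of_freeRange blk_129 (by omega) (by omega)
  by_cases h130 : i < 131
  · exact freeAt_of_freeRange blk_130 (by omega) (by omega)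
  by_cases h131 : i < 132
  · exact freeAt_of_freeRange blk_131 (by omega) (by omega)
  by_cases h132 : i < 133
  · exact freeAt_of_freeRange blk_132 (by omega) (by omega)
  by_cases h133 : i < 134
  · exact freeAt_of_freeRange blk_133 (by omega) (by omega)
  by_cases h134 : i < 135
  · exact freeAt_of_freeRange blk_134 (by omega) (by omega)
  by_cases h135 : i < 136
  · exact freeAt_of_freeRange blk_135 (by omega) (by omega)
  by_cases h136 : i < 137
  · exact freeAt_of_freeRange blk_136 (by omega) (by omega)
  by_cases h137 : i < 138
  · exact freeAt_of_freeRange blk_137 (by omega) (by omega)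
  by_cases h138 : i < 139
  · exact freeAt_of_freeRange blk_138 (by omega) (by omega)
  by_cases h139 : i < 140
  · exact freeAt_of_freeRange blk_139 (by omega) (by omega)
  by_cases h140 : i < 141
  · exact freeAt_of_freeRange blk_140 (by omega) (by omega)
  by_cases h141 : i < 142
  · exact freeAt_of_freeRange blk_141 (by omega) (by omega)
  by_cases h142 : i < 143
  · exact freeAt_of_freeRange blk_142 (by omega) (by omega)
  by_cases h143 : i < 144
  · exact freeAt_of_freeRange blk_143 (by omega) (by omega)
  by_cases h144 : i < 145
  · exact freeAt_of_freeRange blk_144 (by omega) (by omega)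
  by_cases h145 : i < 146
  · exact freeAt_of_freeRange blk_145 (by omega) (by omega)
  by_cases h146 : i < 147
  · exact freeAt_of_freeRange blk_146 (by omega) (by omega)
  by_cases h147 : i < 149
  · exact freeAt_of_freeRange blk_147 (by omega) (by omega)
  by_cases h149 : i < 151
  · exact freeAt_of_freeRange blk_149 (by omega) (by omega)
  by_cases h151 : i < 153
  · exact freeAt_of_freeRange blk_151 (by omega) (by omega)
  by_cases h153 : i < 155
  · exact freeAt_of_freeRange blk_153 (by omega) (by omega)
  by_cases h155 : i < 157
  · exact freeAt_of_freeRange blk_155 (by omega) (by omega)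
  by_cases h157 : i < 159
  · exact freeAt_of_freeRange blk_157 (by omega) (by omega)
  by_cases h159 : i < 161
  · exact freeAt_of_freeRange blk_159 (by omega) (by omega)
  by_cases h161 : i < 163
  · exact freeAt_of_freeRange blk_161 (by omega) (by omega)
  by_cases h163 : i < 165
  · exact freeAt_of_freeRange blk_163 (by omega) (by omega)
  by_cases h165 : i < 167
  · exact freeAt_of_freeRange blk_165 (by omega) (by omega)
  by_cases h167 : i < 169
  · exact freeAt_of_freeRange blk_167 (by omega) (by omega)
  by_cases h169 : i < 172
  · exact freeAt_of_freeRange blk_169 (by omega) (by omega)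
  by_cases h172 : i < 175
  · exact freeAt_of_freeRange blk_172 (by omega) (by omega)
  by_cases h175 : i < 179
  · exact freeAt_of_freeRange blk_175 (by omega) (by omega)
  by_cases h179 : i < 183
  · exact freeAt_of_freeRange blk_179 (by omega) (by omega)
  by_cases h183 : i < 187
  · exact freeAt_of_freeRange blk_183 (by omega) (by omega)
  by_cases h187 : i < 191
  · exact freeAt_of_freeRange blk_187 (by omega) (by omega)
  by_cases h191 : i < 195
  · exact freeAt_of_freeRange blk_191 (by omega) (by omega)
  by_cases h195 : i < 202
  · exact freeAt_of_freeRange blk_195 (by omega) (by omega)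
  by_cases h202 : i < 207
  · exact freeAt_of_freeRange blk_202 (by omega) (by omega)
  by_cases h207 : i < 213
  · exact freeAt_of_freeRange blk_207 (by omega) (by omega)
  by_cases h213 : i < 221
  · exact freeAt_of_freeRange blk_213 (by omega) (by omega)
  by_cases h221 : i < 232
  · exact freeAt_of_freeRange blk_221 (by omega) (by omega)
  by_cases h232 : i < 248
  · exact freeAt_of_freeRange blk_232 (by omega) (by omega)
  by_cases h248 : i < 279
  · exact freeAt_of_freeRange blk_248 (by omega) (by omega)
  by_cases h279 : i < 321
  · exact freeAt_of_freeRange blk_279 (by omega) (by omega)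
  omega

/-- Every set of indices below 321 that are pairwise adjacent in the graph of `adjRows` has at
most five elements. -/
theorem card_le_five (s : Finset ℕ) (hs : ∀ i ∈ s, i < 321)
    (hadj : ∀ i ∈ s, ∀ j ∈ s, i < j → adjBit i j = true) : s.card ≤ 5 := by
  apply card_le_of_freeAt (adjRows.take 321) 5 all_freeAt s
  · intro i hi
    rw [length_take]
    exact hs i hi
  · intro i hi j hj hij
    have h := hadj i hi j hj hij
    have hi' : i < 321 := hs i hi
    have : (adjRows.take 321).getD i 0 = adjRows.getD i 0 := by
      simp only [List.getD_eq_getElem?_getD, List.getElem?_take, if_pos hi']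
    rw [this]
    exact h

/-- For two distinct indices below 321 the entry of `Nmat` is `3` exactly when they are adjacent,
and `-1` otherwise. -/
theorem Nmat_offdiag (u v : Fin 416) (hu : (u : ℕ) < 321) (hv : (v : ℕ) < 321) (hne : u ≠ v) :
    Nmat u v = if adjBit u v = true then 3 else -1 := by
  have hne' : (u : ℕ) ≠ (v : ℕ) := fun h => hne (Fin.ext h)
  have hw2u : w2 (u : ℕ) = 0 := by
    unfold w2
    rw [if_pos (by omega)]
  have hw2v : w2 (v : ℕ) = 0 := by
    unfold w2
    rw [if_pos (by omega)]
  have hw1 : w1 (u : ℕ) * w1 (v : ℕ) = 0 := by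
    rcases lt_or_ge (u : ℕ) 320 with h | h
    · have : w1 (u : ℕ) = 0 := by
        unfold w1
        rw [if_pos h]
      rw [this, zero_mul]
    · have hv' : (v : ℕ) < 320 := by omega
      have : w1 (v : ℕ) = 0 := by
        unfold w1
        rw [if_pos hv']
      rw [this, mul_zero]
  have hN : Nmat u v = gram (u : ℕ) (v : ℕ) := by
    simp only [Nmat, Matrix.of_apply]
    rw [hw2u, hw2v, mul_assoc, hw1]
    ring
  rw [hN]
  unfold gram
  rw [if_neg hne']

/-- The clique bound in matrix form: a subset of `T` on which all off-diagonal entries of `Nmat`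
equal `3` has at most five elements. -/
theorem clique_bound : ∀ P : Finset (Fin 416), P ⊆ T →
    (∀ u ∈ P, ∀ v ∈ P, u ≠ v → Nmat u v = 3) → P.card ≤ 5 := by
  classical
  intro P hPT hP
  have hT : ∀ u ∈ P, (u : ℕ) < 321 := by
    intro u hu
    have := hPT hu
    simpa [T] using this
  have hinj : Function.Injective (fun u : Fin 416 => (u : ℕ)) := Fin.val_injective
  have key := card_le_five (P.image fun u : Fin 416 => (u : ℕ))
    (by
      intro i hi
      obtain ⟨u, hu, rfl⟩ := Finset.mem_image.1 hi
      exact hT u hu)
    (by
      intro i hi j hj hij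
      obtain ⟨u, hu, rfl⟩ := Finset.mem_image.1 hi
      obtain ⟨v, hv, rfl⟩ := Finset.mem_image.1 hj
      have hne : u ≠ v := fun e => by rw [e] at hij; exact lt_irrefl _ hij
      have h3 := hP u hu v hv hne
      rw [Nmat_offdiag u v (hT u hu) (hT v hv) hne] at h3
      by_contra hb
      rw [if_neg hb] at h3
      norm_num at h3)
  rwa [Finset.card_image_of_injective _ hinj] at key

end Vale.Agent.Lib.P052.H29
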