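import Mathlib

/-!
# A kernel-friendly certificate for clique-freeness

A graph on the indices `0, ..., n - 1` is given by a list of natural numbers `rows` of length `n`;
row `i` is a bitmask whose bit `j` (for `j > i`) says that `i` and `j` are adjacent.  Only the bits
above the diagonal are used, so the graph is symmetric by construction.  `free k L` is a Boolean
test by structural recursion, and the theorems below say that it certifies that every set of
pairwise adjacent indices has fewer than `k` elements.  The test can be split into one small
Boolean statement per starting vertex (`freeAt`), so that each piece stays cheap for the kernel.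
-/

namespace Vale.Agent.Lib.P052.H29

/-- `allTails f L` holds when `f x rest` holds for every suffix `x :: rest` of `L`. -/
def allTails (f : ℕ × ℕ → List (ℕ × ℕ) → Bool) : List (ℕ × ℕ) → Bool
  | [] => true
  | x :: rest => f x rest && allTails f rest

/-- Keep the entries `y` of a list of pairs whose mask `y.1` meets the row `r`. -/
def keep (r : ℕ) (L : List (ℕ × ℕ)) : List (ℕ × ℕ) := L.filter fun y => r &&& y.1 != 0

/-- `free k L`: among the vertices listed in `L` (as pairs `(2^i, row i)`, in increasing order of
`i`), there is no clique with `k` vertices. -/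
def free : ℕ → List (ℕ × ℕ) → Bool
  | 0, _ => false
  | k + 1, L => allTails (fun x rest => free k (keep x.2 rest)) L

/-- The list of pairs `(2^i, row i)`, starting from index `i`. -/
def pairsFrom : ℕ → List ℕ → List (ℕ × ℕ)
  | _, [] => []
  | i, r :: rs => (2 ^ i, r) :: pairsFrom (i + 1) rs

/-- The local test at position `i` of a list of pairs: no clique with `k` vertices among the later
neighbours of the `i`-th entry. -/
def freeAt (k : ℕ) (P : List (ℕ × ℕ)) (i : ℕ) : Bool :=
  match P.drop i with
  | [] => true
  | x :: rest => free k (keep x.2 rest)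

/-- The local tests at positions `a, a + 1, ..., a + len - 1`. -/
def freeRange (k : ℕ) (P : List (ℕ × ℕ)) (a len : ℕ) : Bool :=
  (List.range' a len).all fun i => freeAt k P i

theorem allTails_eq_true_iff (f : ℕ × ℕ → List (ℕ × ℕ) → Bool) (L : List (ℕ × ℕ)) :
    allTails f L = true ↔ ∀ x rest, (x :: rest) <:+ L → f x rest = true := by
  induction L with
  | nil =>
    simp [allTails]
  | cons a L ih =>
    simp only [allTails, Bool.and_eq_true, ih]
    constructor
    · rintro ⟨h1, h2⟩ x rest hsuf
      rcases List.suffix_cons_iff.1 hsuf with h | h
      · have h' := List.cons.inj h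
        rw [h'.1, h'.2]
        exact h1
      · exact h2 x rest h
    · intro h
      exact ⟨h a L (List.suffix_refl _), fun x rest hs => h x rest (hs.trans (List.suffix_cons a L))⟩

theorem exists_suffix_of_cons_sublist {α : Type*} {s : α} {S L : List α} (h : List.Sublist (s :: S) L) :
    ∃ rest, (s :: rest) <:+ L ∧ List.Sublist S rest := by
  induction L with
  | nil => cases h
  | cons a L ih =>
    cases h with
    | cons _ h' =>
      obtain ⟨rest, h1, h2⟩ := ih h'
      exact ⟨rest, h1.trans (List.suffix_cons a L), h2⟩
    | cons_cons _ h' =>
      exact ⟨L, List.suffix_refl _, h'⟩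

/-- Soundness of `free`: a sublist that is pairwise adjacent has fewer than `k` entries. -/
theorem length_lt_of_free : ∀ (k : ℕ) (L S : List (ℕ × ℕ)), free k L = true → List.Sublist S L →
    S.Pairwise (fun x y => x.2 &&& y.1 ≠ 0) → S.length < k := by
  intro k
  induction k with
  | zero =>
    intro L S h
    simp [free] at h
  | succ k ih =>
    intro L S h hS hpw
    cases S with
    | nil => simp
    | cons s S' =>
      obtain ⟨rest, hsuf, hS'⟩ := exists_suffix_of_cons_sublist hS
      rw [free, allTails_eq_true_iff] at h
      have h1 := h s rest hsuf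
      rw [List.pairwise_cons] at hpw
      have hfilter : List.Sublist S' (keep s.2 rest) := by
        have h2 : List.Sublist (S'.filter (fun y => s.2 &&& y.1 != 0)) (keep s.2 rest) := hS'.filter _
        have h3 : S'.filter (fun y => s.2 &&& y.1 != 0) = S' := by
          rw [List.filter_eq_self]
          intro y hy
          simpa using hpw.1 y hy
        rwa [h3] at h2
      have := ih (keep s.2 rest) S' h1 hfilter hpw.2
      simp only [List.length_cons]
      omega

theorem pairsFrom_eq_map (rows : List ℕ) : ∀ a : ℕ,
    pairsFrom a rows = (List.range rows.length).map fun i => (2 ^ (a + i), rows.getD i 0) := by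
  induction rows with
  | nil => intro a; simp [pairsFrom]
  | cons r rs ih =>
    intro a
    rw [pairsFrom, ih (a + 1), List.length_cons, List.range_succ_eq_map, List.map_cons,
      List.map_map]
    simp only [add_zero, List.getD_cons_zero, List.cons.injEq, true_and]
    apply List.map_congr_left
    intro i _
    simp [Function.comp, add_assoc, add_comm 1 i]

theorem length_pairsFrom (rows : List ℕ) (a : ℕ) : (pairsFrom a rows).length = rows.length := by
  rw [pairsFrom_eq_map]
  simp

/-- The global test is the conjunction of the local tests. -/
theorem free_succ_of_freeAt (k : ℕ) (P : List (ℕ × ℕ))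
    (h : ∀ i < P.length, freeAt k P i = true) : free (k + 1) P = true := by
  rw [free, allTails_eq_true_iff]
  intro x rest hsuf
  obtain ⟨pre, hpre⟩ := hsuf
  have hi : pre.length < P.length := by
    rw [← hpre]
    simp
  have h1 := h pre.length hi
  have hdrop : P.drop pre.length = x :: rest := by
    rw [← hpre]
    simp
  simpa [freeAt, hdrop] using h1

theorem freeAt_of_freeRange {k : ℕ} {P : List (ℕ × ℕ)} {a len : ℕ}
    (h : freeRange k P a len = true) {i : ℕ} (h1 : a ≤ i) (h2 : i < a + len) :
    freeAt k P i = true := by
  rw [freeRange, List.all_eq_true] at h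
  apply h
  rw [List.mem_range']
  exact ⟨i - a, by omega, by omega⟩

/-- The candidate list of the `i`-th entry: its later neighbours. -/
def candAt (P : List (ℕ × ℕ)) (i : ℕ) : List (ℕ × ℕ) :=
  match P.drop i with
  | [] => []
  | x :: rest => keep x.2 rest

theorem freeAt_succ_eq (k : ℕ) (P : List (ℕ × ℕ)) (i : ℕ) :
    freeAt (k + 1) P i = free (k + 1) (candAt P i) := by
  unfold freeAt candAt
  cases P.drop i with
  | nil => simp [free, allTails]
  | cons x rest => rfl

theorem length_candAt_le (P : List (ℕ × ℕ)) (i : ℕ) : (candAt P i).length ≤ P.length := by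
  unfold candAt
  cases h : P.drop i with
  | nil => simp
  | cons x rest =>
    have h1 : (keep x.2 rest).length ≤ rest.length := List.length_filter_le _ _
    have h2 : (P.drop i).length ≤ P.length := by
      rw [List.length_drop]
      omega
    rw [h] at h2
    simp only [List.length_cons] at h2
    show (keep x.2 rest).length ≤ P.length
    omega

/-- A local test with parameter `k + 1` follows from the local tests with parameter `k` on the
candidate list. -/
theorem freeAt_of_blocks {k : ℕ} {P : List (ℕ × ℕ)} {i : ℕ}
    (h : ∀ j < P.length, freeAt k (candAt P i) j = true) : freeAt (k + 1) P i = true := by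
  rw [freeAt_succ_eq]
  apply free_succ_of_freeAt
  intro j hj
  exact h j (lt_of_lt_of_le hj (length_candAt_le P i))

/-- Main soundness statement: if the Boolean test passes with parameter `k + 1`, every set of
indices below `rows.length` in which any two indices `i < j` satisfy `testBit (rows[i]) j` has at
most `k` elements. -/
theorem card_le_of_free (rows : List ℕ) (k : ℕ) (h : free (k + 1) (pairsFrom 0 rows) = true)
    (s : Finset ℕ) (hs : ∀ i ∈ s, i < rows.length)
    (hadj : ∀ i ∈ s, ∀ j ∈ s, i < j → (rows.getD i 0).testBit j = true) : s.card ≤ k := by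
  classical
  set f : ℕ → ℕ × ℕ := fun i => (2 ^ (0 + i), rows.getD i 0) with hf
  have hsub : List.Sublist (s.sort (· ≤ ·)) (List.range rows.length) := by
    apply List.sublist_of_subperm_of_pairwise (r := (· ≤ ·))
    · apply List.subperm_of_subset (Finset.sort_nodup _ _)
      intro i hi
      rw [Finset.mem_sort] at hi
      exact List.mem_range.2 (hs i hi)
    · exact Finset.pairwise_sort _ _
    · exact List.pairwise_lt_range.imp le_of_lt
  have hsub' : List.Sublist ((s.sort (· ≤ ·)).map f) (pairsFrom 0 rows) := by
    rw [pairsFrom_eq_map]
    exact hsub.map f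
  have hpw : ((s.sort (· ≤ ·)).map f).Pairwise (fun x y => x.2 &&& y.1 ≠ 0) := by
    rw [List.pairwise_map]
    have hlt : (s.sort (· ≤ ·)).Pairwise (· < ·) := (Finset.sortedLT_sort s).pairwise
    refine hlt.imp_of_mem ?_
    intro i j hi hj hij
    rw [Finset.mem_sort] at hi hj
    have hb := hadj i hi j hj hij
    simp only [hf, zero_add]
    intro h0
    have h1 : (rows.getD i 0 &&& 2 ^ j).testBit j = true := by
      rw [Nat.testBit_and, hb, Nat.testBit_two_pow_self]
      rfl
    rw [h0] at h1
    simp at h1
  have := length_lt_of_free (k + 1) _ _ h hsub' hpw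
  rw [List.length_map, Finset.length_sort] at this
  omega

/-- The same, with the test given as local tests at all positions. -/
theorem card_le_of_freeAt (rows : List ℕ) (k : ℕ)
    (h : ∀ i < rows.length, freeAt k (pairsFrom 0 rows) i = true)
    (s : Finset ℕ) (hs : ∀ i ∈ s, i < rows.length)
    (hadj : ∀ i ∈ s, ∀ j ∈ s, i < j → (rows.getD i 0).testBit j = true) : s.card ≤ k := by
  apply card_le_of_free rows k _ s hs hadj
  apply free_succ_of_freeAt
  intro i hi
  rw [length_pairsFrom] at hi
  exact h i hi

/-- The graph on `Fin rows.length` whose edges `i < j` are the set bits `j` of `rows[i]`. -/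
def bitGraph (rows : List ℕ) : SimpleGraph (Fin rows.length) where
  Adj i j := (i < j ∧ (rows.getD i 0).testBit j = true) ∨ (j < i ∧ (rows.getD j 0).testBit i = true)
  symm := ⟨fun _ _ h => h.symm⟩
  loopless := ⟨fun i h => by rcases h with h | h <;> exact lt_irrefl _ h.1⟩

/-- Clique-freeness of the bitmask graph from the local tests. -/
theorem cliqueFree_of_freeAt (rows : List ℕ) (k : ℕ)
    (h : ∀ i < rows.length, freeAt k (pairsFrom 0 rows) i = true) :
    (bitGraph rows).CliqueFree (k + 1) := by
  classical
  intro t ht
  have hcard := ht.card_eq
  have hcl := ht.isClique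
  have hinj : Function.Injective (fun i : Fin rows.length => (i : ℕ)) := Fin.val_injective
  have := card_le_of_freeAt rows k h (t.image fun i : Fin rows.length => (i : ℕ))
    (by
      intro i hi
      obtain ⟨a, _, rfl⟩ := Finset.mem_image.1 hi
      exact a.2)
    (by
      intro i hi j hj hij
      obtain ⟨a, ha, rfl⟩ := Finset.mem_image.1 hi
      obtain ⟨b, hb, rfl⟩ := Finset.mem_image.1 hj
      have hab : a ≠ b := fun e => by rw [e] at hij; exact lt_irrefl _ hij
      have hadj := hcl (Finset.mem_coe.2 ha) (Finset.mem_coe.2 hb) hab
      rcases hadj with h1 | h1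
      · exact h1.2
      · exact absurd h1.1 (not_lt.2 (le_of_lt (Fin.lt_def.2 hij))))
  rw [Finset.card_image_of_injective _ hinj] at this
  omega

end Vale.Agent.Lib.P052.H29
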