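import Vale.Agent.Lib.P052.helper29.CliqueCheck
import Vale.Agent.Lib.P052.lead.Data

/-! Kernel-checked local clique tests for the 321 vertices used, in small blocks. -/

namespace Vale.Agent.Lib.P052.H29

theorem sub_0_0 : freeRange 4 (candAt (pairsFrom 0 (Vale.Agent.Lib.P052.adjRows.take 321)) 0) 0 11 = true := by
  decide +kernel

theorem sub_0_11 : freeRange 4 (candAt (pairsFrom 0 (Vale.Agent.Lib.P052.adjRows.take 321)) 0) 11 16 = true := by
  decide +kernel

theorem sub_0_27 : freeRange 4 (candAt (pairsFrom 0 (Vale.Agent.Lib.P052.adjRows.take 321)) 0) 27 373 = true := by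
  decide +kernel

theorem sub_1_0 : freeRange 4 (candAt (pairsFrom 0 (Vale.Agent.Lib.P052.adjRows.take 321)) 1) 0 11 = true := by
  decide +kernel

theorem sub_1_11 : freeRange 4 (candAt (pairsFrom 0 (Vale.Agent.Lib.P052.adjRows.take 321)) 1) 11 16 = true := by
  decide +kernel

theorem sub_1_27 : freeRange 4 (candAt (pairsFrom 0 (Vale.Agent.Lib.P052.adjRows.take 321)) 1) 27 373 = true := by
  decide +kernel

theorem sub_2_0 : freeRange 4 (candAt (pairsFrom 0 (Vale.Agent.Lib.P052.adjRows.take 321)) 2) 0 11 = true := by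
  decide +kernel

theorem sub_2_11 : freeRange 4 (candAt (pairsFrom 0 (Vale.Agent.Lib.P052.adjRows.take 321)) 2) 11 16 = true := by
  decide +kernel

theorem sub_2_27 : freeRange 4 (candAt (pairsFrom 0 (Vale.Agent.Lib.P052.adjRows.take 321)) 2) 27 373 = true := by
  decide +kernel

theorem sub_3_0 : freeRange 4 (candAt (pairsFrom 0 (Vale.Agent.Lib.P052.adjRows.take 321)) 3) 0 11 = true := by
  decide +kernel

theorem sub_3_11 : freeRange 4 (candAt (pairsFrom 0 (Vale.Agent.Lib.P052.adjRows.take 321)) 3) 11 16 = true := by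
  decide +kernel

theorem sub_3_27 : freeRange 4 (candAt (pairsFrom 0 (Vale.Agent.Lib.P052.adjRows.take 321)) 3) 27 373 = true := by
  decide +kernel

theorem sub_4_0 : freeRange 4 (candAt (pairsFrom 0 (Vale.Agent.Lib.P052.adjRows.take 321)) 4) 0 11 = true := by
  decide +kernel

theorem sub_4_11 : freeRange 4 (candAt (pairsFrom 0 (Vale.Agent.Lib.P052.adjRows.take 321)) 4) 11 16 = true := by
  decide +kernel

theorem sub_4_27 : freeRange 4 (candAt (pairsFrom 0 (Vale.Agent.Lib.P052.adjRows.take 321)) 4) 27 373 = true := by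
  decide +kernel

theorem sub_5_0 : freeRange 4 (candAt (pairsFrom 0 (Vale.Agent.Lib.P052.adjRows.take 321)) 5) 0 11 = true := by
  decide +kernel

theorem sub_5_11 : freeRange 4 (candAt (pairsFrom 0 (Vale.Agent.Lib.P052.adjRows.take 321)) 5) 11 16 = true := by
  decide +kernel

theorem sub_5_27 : freeRange 4 (candAt (pairsFrom 0 (Vale.Agent.Lib.P052.adjRows.take 321)) 5) 27 373 = true := by
  decide +kernel

theorem sub_6_0 : freeRange 4 (candAt (pairsFrom 0 (Vale.Agent.Lib.P052.adjRows.take 321)) 6) 0 11 = true := by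
  decide +kernel

theorem sub_6_11 : freeRange 4 (candAt (pairsFrom 0 (Vale.Agent.Lib.P052.adjRows.take 321)) 6) 11 16 = true := by
  decide +kernel

theorem sub_6_27 : freeRange 4 (candAt (pairsFrom 0 (Vale.Agent.Lib.P052.adjRows.take 321)) 6) 27 373 = true := by
  decide +kernel

theorem sub_7_0 : freeRange 4 (candAt (pairsFrom 0 (Vale.Agent.Lib.P052.adjRows.take 321)) 7) 0 11 = true := by
  decide +kernel

theorem sub_7_11 : freeRange 4 (candAt (pairsFrom 0 (Vale.Agent.Lib.P052.adjRows.take 321)) 7) 11 16 = true := by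
  decide +kernel

theorem sub_7_27 : freeRange 4 (candAt (pairsFrom 0 (Vale.Agent.Lib.P052.adjRows.take 321)) 7) 27 373 = true := by
  decide +kernel

theorem sub_8_0 : freeRange 4 (candAt (pairsFrom 0 (Vale.Agent.Lib.P052.adjRows.take 321)) 8) 0 11 = true := by
  decide +kernel

theorem sub_8_11 : freeRange 4 (candAt (pairsFrom 0 (Vale.Agent.Lib.P052.adjRows.take 321)) 8) 11 16 = true := by
  decide +kernel

theorem sub_8_27 : freeRange 4 (candAt (pairsFrom 0 (Vale.Agent.Lib.P052.adjRows.take 321)) 8) 27 373 = true := by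
  decide +kernel

theorem sub_9_0 : freeRange 4 (candAt (pairsFrom 0 (Vale.Agent.Lib.P052.adjRows.take 321)) 9) 0 11 = true := by
  decide +kernel

theorem sub_9_11 : freeRange 4 (candAt (pairsFrom 0 (Vale.Agent.Lib.P052.adjRows.take 321)) 9) 11 15 = true := by
  decide +kernel

theorem sub_9_26 : freeRange 4 (candAt (pairsFrom 0 (Vale.Agent.Lib.P052.adjRows.take 321)) 9) 26 374 = true := by
  decide +kernel

end Vale.Agent.Lib.P052.H29
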