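import Vale.Agent.Lib.P052.helper29.FastCheck

/-! Kernel-checked blocks of the Boolean test `check1F` of `FastCheck`. -/

namespace Vale.Agent.Lib.P052.H29

open Vale.Agent.Lib.P052

theorem fast1_0 : check1F (List.range' 0 26) (adjRows.drop 0) (spreadRows.drop 0)
    (encRows.drop 0) = true := by
  decide +kernel

theorem fast1_26 : check1F (List.range' 26 26) (adjRows.drop 26) (spreadRows.drop 26)
    (encRows.drop 26) = true := by
  decide +kernel

theorem fast1_52 : check1F (List.range' 52 26) (adjRows.drop 52) (spreadRows.drop 52)
    (encRows.drop 52) = true := by
  decide +kernel

theorem fast1_78 : check1F (List.range' 78 26) (adjRows.drop 78) (spreadRows.drop 78)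
    (encRows.drop 78) = true := by
  decide +kernel

theorem fast1_104 : check1F (List.range' 104 26) (adjRows.drop 104) (spreadRows.drop 104)
    (encRows.drop 104) = true := by
  decide +kernel

theorem fast1_130 : check1F (List.range' 130 26) (adjRows.drop 130) (spreadRows.drop 130)
    (encRows.drop 130) = true := by
  decide +kernel

theorem fast1_156 : check1F (List.range' 156 26) (adjRows.drop 156) (spreadRows.drop 156)
    (encRows.drop 156) = true := by
  decide +kernel

theorem fast1_182 : check1F (List.range' 182 26) (adjRows.drop 182) (spreadRows.drop 182)
    (encRows.drop 182) = true := by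
  decide +kernel

theorem fast1_208 : check1F (List.range' 208 26) (adjRows.drop 208) (spreadRows.drop 208)
    (encRows.drop 208) = true := by
  decide +kernel

theorem fast1_234 : check1F (List.range' 234 26) (adjRows.drop 234) (spreadRows.drop 234)
    (encRows.drop 234) = true := by
  decide +kernel

theorem fast1_260 : check1F (List.range' 260 26) (adjRows.drop 260) (spreadRows.drop 260)
    (encRows.drop 260) = true := by
  decide +kernel

theorem fast1_286 : check1F (List.range' 286 26) (adjRows.drop 286) (spreadRows.drop 286)
    (encRows.drop 286) = true := by
  decide +kernel

theorem fast1_312 : check1F (List.range' 312 26) (adjRows.drop 312) (spreadRows.drop 312)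
    (encRows.drop 312) = true := by
  decide +kernel

theorem fast1_338 : check1F (List.range' 338 26) (adjRows.drop 338) (spreadRows.drop 338)
    (encRows.drop 338) = true := by
  decide +kernel

theorem fast1_364 : check1F (List.range' 364 26) (adjRows.drop 364) (spreadRows.drop 364)
    (encRows.drop 364) = true := by
  decide +kernel

theorem fast1_390 : check1F (List.range' 390 26) (adjRows.drop 390) (spreadRows.drop 390)
    (encRows.drop 390) = true := by
  decide +kernel

end Vale.Agent.Lib.P052.H29
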