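import Vale.Agent.Lib.P052.helper29.FastCheck

/-! Kernel-checked blocks of the Boolean test `check2F` of `FastCheck`. -/

namespace Vale.Agent.Lib.P052.H29

open Vale.Agent.Lib.P052

theorem fast2_0 : check2F (List.range' 0 10) (adjRows.drop 0) (encRows.drop 0) = true := by
  decide +kernel

theorem fast2_10 : check2F (List.range' 10 10) (adjRows.drop 10) (encRows.drop 10) = true := by
  decide +kernel

theorem fast2_20 : check2F (List.range' 20 10) (adjRows.drop 20) (encRows.drop 20) = true := by
  decide +kernel

theorem fast2_30 : check2F (List.range' 30 10) (adjRows.drop 30) (encRows.drop 30) = true := by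
  decide +kernel

theorem fast2_40 : check2F (List.range' 40 10) (adjRows.drop 40) (encRows.drop 40) = true := by
  decide +kernel

theorem fast2_50 : check2F (List.range' 50 10) (adjRows.drop 50) (encRows.drop 50) = true := by
  decide +kernel

theorem fast2_60 : check2F (List.range' 60 10) (adjRows.drop 60) (encRows.drop 60) = true := by
  decide +kernel

theorem fast2_70 : check2F (List.range' 70 10) (adjRows.drop 70) (encRows.drop 70) = true := by
  decide +kernel

theorem fast2_80 : check2F (List.range' 80 10) (adjRows.drop 80) (encRows.drop 80) = true := by
  decide +kernel

theorem fast2_90 : check2F (List.range' 90 10) (adjRows.drop 90) (encRows.drop 90) = true := by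
  decide +kernel

theorem fast2_100 : check2F (List.range' 100 10) (adjRows.drop 100) (encRows.drop 100) = true := by
  decide +kernel

theorem fast2_110 : check2F (List.range' 110 10) (adjRows.drop 110) (encRows.drop 110) = true := by
  decide +kernel

theorem fast2_120 : check2F (List.range' 120 10) (adjRows.drop 120) (encRows.drop 120) = true := by
  decide +kernel

theorem fast2_130 : check2F (List.range' 130 10) (adjRows.drop 130) (encRows.drop 130) = true := by
  decide +kernel

theorem fast2_140 : check2F (List.range' 140 10) (adjRows.drop 140) (encRows.drop 140) = true := by
  decide +kernel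

theorem fast2_150 : check2F (List.range' 150 10) (adjRows.drop 150) (encRows.drop 150) = true := by
  decide +kernel

theorem fast2_160 : check2F (List.range' 160 10) (adjRows.drop 160) (encRows.drop 160) = true := by
  decide +kernel

theorem fast2_170 : check2F (List.range' 170 10) (adjRows.drop 170) (encRows.drop 170) = true := by
  decide +kernel

theorem fast2_180 : check2F (List.range' 180 10) (adjRows.drop 180) (encRows.drop 180) = true := by
  decide +kernel

theorem fast2_190 : check2F (List.range' 190 10) (adjRows.drop 190) (encRows.drop 190) = true := by
  decide +kernel

theorem fast2_200 : check2F (List.range' 200 10) (adjRows.drop 200) (encRows.drop 200) = true := by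
  decide +kernel

end Vale.Agent.Lib.P052.H29
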