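import Vale.Agent.Lib.P052.helper29.FastCheck

/-! Kernel-checked blocks of the Boolean test `check2F` of `FastCheck`. -/

namespace Vale.Agent.Lib.P052.H29

open Vale.Agent.Lib.P052

theorem fast2_210 : check2F (List.range' 210 10) (adjRows.drop 210) (encRows.drop 210) = true := by
  decide +kernel

theorem fast2_220 : check2F (List.range' 220 10) (adjRows.drop 220) (encRows.drop 220) = true := by
  decide +kernel

theorem fast2_230 : check2F (List.range' 230 10) (adjRows.drop 230) (encRows.drop 230) = true := by
  decide +kernel

theorem fast2_240 : check2F (List.range' 240 10) (adjRows.drop 240) (encRows.drop 240) = true := by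
  decide +kernel

theorem fast2_250 : check2F (List.range' 250 10) (adjRows.drop 250) (encRows.drop 250) = true := by
  decide +kernel

theorem fast2_260 : check2F (List.range' 260 10) (adjRows.drop 260) (encRows.drop 260) = true := by
  decide +kernel

theorem fast2_270 : check2F (List.range' 270 10) (adjRows.drop 270) (encRows.drop 270) = true := by
  decide +kernel

theorem fast2_280 : check2F (List.range' 280 10) (adjRows.drop 280) (encRows.drop 280) = true := by
  decide +kernel

theorem fast2_290 : check2F (List.range' 290 10) (adjRows.drop 290) (encRows.drop 290) = true := by
  decide +kernel

theorem fast2_300 : check2F (List.range' 300 10) (adjRows.drop 300) (encRows.drop 300) = true := by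
  decide +kernel

theorem fast2_310 : check2F (List.range' 310 10) (adjRows.drop 310) (encRows.drop 310) = true := by
  decide +kernel

theorem fast2_320 : check2F (List.range' 320 10) (adjRows.drop 320) (encRows.drop 320) = true := by
  decide +kernel

theorem fast2_330 : check2F (List.range' 330 10) (adjRows.drop 330) (encRows.drop 330) = true := by
  decide +kernel

theorem fast2_340 : check2F (List.range' 340 10) (adjRows.drop 340) (encRows.drop 340) = true := by
  decide +kernel

theorem fast2_350 : check2F (List.range' 350 10) (adjRows.drop 350) (encRows.drop 350) = true := by
  decide +kernel

theorem fast2_360 : check2F (List.range' 360 10) (adjRows.drop 360) (encRows.drop 360) = true := by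
  decide +kernel

theorem fast2_370 : check2F (List.range' 370 10) (adjRows.drop 370) (encRows.drop 370) = true := by
  decide +kernel

theorem fast2_380 : check2F (List.range' 380 10) (adjRows.drop 380) (encRows.drop 380) = true := by
  decide +kernel

theorem fast2_390 : check2F (List.range' 390 10) (adjRows.drop 390) (encRows.drop 390) = true := by
  decide +kernel

theorem fast2_400 : check2F (List.range' 400 10) (adjRows.drop 400) (encRows.drop 400) = true := by
  decide +kernel

theorem fast2_410 : check2F (List.range' 410 6) (adjRows.drop 410) (encRows.drop 410) = true := by
  decide +kernel

end Vale.Agent.Lib.P052.H29
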