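import Mathlib
import Vale.Agent.Lib.P052.lead.Data
import Vale.Agent.Lib.P052.helper29.EncData

/-!
# P052: a kernel-friendly certificate for `Nmatᵀ * Nmat = 96 • Nmat`

Rows of `Nmat` are encoded as integers in base `2 ^ 20` (`encRows`).  Two Boolean tests are
evaluated by the kernel: `check1` says that the encodings are right, `check2` says that for
every column `u` the combination `∑ k, Nmat k u * (encoding of row k)` equals `96` times the
encoding of row `u`.  Since all entries involved are small, comparing the base `2 ^ 20` digits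
gives the matrix identity (`hsq_of_checks`).
-/

namespace Vale.Agent.Lib.P052.H29

open Vale.Agent.Lib.P052

/-- The entries of `Nmat` as a function of natural indices. -/
def Nbody (u v : ℕ) : ℤ :=
  gram u v - 2 * w1 u * w1 v - w1 u * w2 v - w2 u * w1 v - 2 * w2 u * w2 v

theorem Nmat_apply (u v : Fin 416) : Nmat u v = Nbody u v := rfl

/-- The entry `(k, u)` computed from the bitmask `r` of row `k`. -/
def entryR (r k u : ℕ) : ℤ :=
  (if k = u then 15 else if r.testBit u = true then 3 else -1)
    - 2 * w1 k * w1 u - w1 k * w2 u - w2 k * w1 u - 2 * w2 k * w2 u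

theorem entryR_eq (k u : ℕ) : entryR (adjRows.getD k 0) k u = Nbody k u := rfl

/-- The base `2 ^ 20` encoding of row `k`, computed from its bitmask `r`. -/
def encRow (r k : ℕ) : ℤ :=
  (List.range 416).foldr (fun v acc => entryR r k v + 1048576 * acc) 0

/-- First test: the listed encodings are the encodings of the rows in the list `ks`. -/
def check1 (ks : List ℕ) : Bool :=
  ks.all fun k => decide (encRow (adjRows.getD k 0) k = encRows.getD k 0)

/-- `∑ k, (entry (k, u)) * (encoding of row k)`, over three lists read in parallel. -/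
def colSumAux (u : ℕ) : List ℕ → List ℕ → List ℤ → ℤ
  | k :: ks, r :: rs, e :: es => entryR r k u * e + colSumAux u ks rs es
  | _, _, _ => 0

/-- Second test, for the columns in the list `us`. -/
def check2 (us : List ℕ) : Bool :=
  us.all fun u =>
    decide (colSumAux u (List.range 416) adjRows encRows = 96 * encRows.getD u 0)

theorem foldr_horner (f : ℕ → ℤ) (B : ℤ) : ∀ (n : ℕ) (a : ℤ),
    (List.range n).foldr (fun v acc => f v + B * acc) a
      = ∑ v ∈ Finset.range n, f v * B ^ v + B ^ n * a := by
  intro n
  induction n with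
  | zero => intro a; simp
  | succ n ih =>
    intro a
    rw [List.range_succ, List.foldr_append, List.foldr_cons, List.foldr_nil, ih,
      Finset.sum_range_succ]
    ring

theorem encRow_eq (r k : ℕ) :
    encRow r k = ∑ v ∈ Finset.range 416, entryR r k v * 1048576 ^ v := by
  unfold encRow
  rw [foldr_horner]
  simp

theorem colSumAux_eq (u : ℕ) : ∀ (m a : ℕ) (rs : List ℕ) (es : List ℤ),
    rs.length = m → es.length = m →
    colSumAux u (List.range' a m) rs es
      = ∑ i ∈ Finset.range m, entryR (rs.getD i 0) (a + i) u * es.getD i 0 := by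
  intro m
  induction m with
  | zero =>
    intro a rs es _ _
    simp [colSumAux]
  | succ m ih =>
    intro a rs es hr he
    cases rs with
    | nil => simp at hr
    | cons r rs =>
      cases es with
      | nil => simp at he
      | cons e es =>
        simp only [List.length_cons, add_left_inj] at hr he
        rw [List.range'_succ, colSumAux, ih (a + 1) rs es hr he, Finset.sum_range_succ']
        simp only [List.getD_cons_succ, List.getD_cons_zero, add_zero]
        rw [add_comm]
        congr 1
        apply Finset.sum_congr rfl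
        intro i _
        rw [show a + 1 + i = a + (i + 1) by omega]

theorem zero_of_sum_pow (B : ℤ) (hB : 0 < B) : ∀ (n : ℕ) (d : ℕ → ℤ),
    (∀ v < n, |d v| < B) → ∑ v ∈ Finset.range n, d v * B ^ v = 0 → ∀ v < n, d v = 0 := by
  intro n
  induction n with
  | zero => intro d _ _ v hv; omega
  | succ n ih =>
    intro d hb hsum v hv
    rw [Finset.sum_range_succ'] at hsum
    simp only [pow_zero, mul_one] at hsum
    have hfac : ∑ i ∈ Finset.range n, d (i + 1) * B ^ (i + 1)
        = B * ∑ i ∈ Finset.range n, d (i + 1) * B ^ i := by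
      rw [Finset.mul_sum]
      apply Finset.sum_congr rfl
      intro i _
      ring
    rw [hfac] at hsum
    have hdvd : B ∣ d 0 := by
      refine ⟨-∑ i ∈ Finset.range n, d (i + 1) * B ^ i, ?_⟩
      linarith
    have h0 : d 0 = 0 := Int.eq_zero_of_abs_lt_dvd hdvd (hb 0 (by omega))
    rw [h0, add_zero] at hsum
    have hrest : ∑ i ∈ Finset.range n, d (i + 1) * B ^ i = 0 := by
      rcases mul_eq_zero.1 hsum with h | h
      · omega
      · exact h
    have ih' := ih (fun i => d (i + 1)) (fun i hi => hb (i + 1) (by omega)) hrest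
    cases v with
    | zero => exact h0
    | succ v => exact ih' v (by omega)

theorem abs_w1_le (x : ℕ) : |w1 x| ≤ 1 := by
  unfold w1
  split_ifs <;> norm_num

theorem abs_w2_le (x : ℕ) : |w2 x| ≤ 1 := by
  unfold w2
  split_ifs <;> norm_num

theorem abs_gram_le (u v : ℕ) : |gram u v| ≤ 15 := by
  unfold gram
  split_ifs <;> norm_num

theorem abs_mul_le_one {a b : ℤ} (ha : |a| ≤ 1) (hb : |b| ≤ 1) : |a * b| ≤ 1 := by
  rw [abs_mul]
  calc |a| * |b| ≤ 1 * 1 := mul_le_mul ha hb (abs_nonneg _) (by norm_num)
    _ = 1 := by norm_num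

theorem abs_Nbody_le (u v : ℕ) : |Nbody u v| ≤ 21 := by
  unfold Nbody
  have hg := abs_le.1 (abs_gram_le u v)
  have h1 := abs_le.1 (abs_mul_le_one (abs_w1_le u) (abs_w1_le v))
  have h2 := abs_le.1 (abs_mul_le_one (abs_w1_le u) (abs_w2_le v))
  have h3 := abs_le.1 (abs_mul_le_one (abs_w2_le u) (abs_w1_le v))
  have h4 := abs_le.1 (abs_mul_le_one (abs_w2_le u) (abs_w2_le v))
  rw [abs_le]
  constructor
  · nlinarith [hg.1, hg.2, h1.1, h1.2, h2.1, h2.2, h3.1, h3.2, h4.1, h4.2]
  · nlinarith [hg.1, hg.2, h1.1, h1.2, h2.1, h2.2, h3.1, h3.2, h4.1, h4.2]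

/-- The matrix identity from the two tests. -/
theorem hsq_of_checks (hlen1 : adjRows.length = 416) (hlen2 : encRows.length = 416)
    (h1 : ∀ k < 416, encRow (adjRows.getD k 0) k = encRows.getD k 0)
    (h2 : ∀ u < 416, colSumAux u (List.range 416) adjRows encRows = 96 * encRows.getD u 0) :
    Nmat.transpose * Nmat = (96 : ℤ) • Nmat := by
  have hE : ∀ k < 416, encRows.getD k 0
      = ∑ v ∈ Finset.range 416, Nbody k v * 1048576 ^ v := by
    intro k hk
    rw [← h1 k hk, encRow_eq]
    simp only [entryR_eq]
  have hC : ∀ u < 416, ∑ k ∈ Finset.range 416, Nbody k u * encRows.getD k 0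
      = 96 * encRows.getD u 0 := by
    intro u hu
    rw [← h2 u hu, List.range_eq_range', colSumAux_eq u 416 0 adjRows encRows hlen1 hlen2]
    apply Finset.sum_congr rfl
    intro k _
    rw [zero_add, entryR_eq]
  ext u v
  rw [Matrix.mul_apply]
  simp only [Matrix.transpose_apply, Matrix.smul_apply, smul_eq_mul, Nmat_apply]
  rw [Fin.sum_univ_eq_sum_range (fun k => Nbody k u * Nbody k v) 416]
  set d : ℕ → ℤ := fun w => ∑ k ∈ Finset.range 416, Nbody k u * Nbody k w - 96 * Nbody u w
    with hd
  have hd0 : ∑ w ∈ Finset.range 416, d w * 1048576 ^ w = 0 := by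
    simp only [hd, sub_mul, Finset.sum_sub_distrib, Finset.sum_mul]
    rw [Finset.sum_comm]
    have hk : ∀ k ∈ Finset.range 416,
        ∑ w ∈ Finset.range 416, Nbody k u * Nbody k w * 1048576 ^ w
          = Nbody k u * encRows.getD k 0 := by
      intro k hk
      rw [hE k (Finset.mem_range.1 hk), Finset.mul_sum]
      apply Finset.sum_congr rfl
      intro w _
      ring
    rw [Finset.sum_congr rfl hk, hC u u.2, hE u u.2, Finset.mul_sum]
    rw [sub_eq_zero]
    apply Finset.sum_congr rfl
    intro w _
    ring
  have hbound : ∀ w < 416, |d w| < 1048576 := by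
    intro w _
    have hsum : |∑ k ∈ Finset.range 416, Nbody k u * Nbody k w| ≤ 416 * 441 := by
      calc |∑ k ∈ Finset.range 416, Nbody k u * Nbody k w|
          ≤ ∑ k ∈ Finset.range 416, |Nbody k u * Nbody k w| := Finset.abs_sum_le_sum_abs _ _
        _ ≤ ∑ _k ∈ Finset.range 416, (441 : ℤ) := by
            apply Finset.sum_le_sum
            intro k _
            rw [abs_mul]
            calc |Nbody k u| * |Nbody k w| ≤ 21 * 21 :=
                  mul_le_mul (abs_Nbody_le _ _) (abs_Nbody_le _ _) (abs_nonneg _) (by norm_num)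
              _ = 441 := by norm_num
        _ = 416 * 441 := by simp
    have h96 := abs_le.1 (abs_Nbody_le u w)
    have hs := abs_le.1 hsum
    simp only [hd]
    rw [abs_lt]
    constructor <;> linarith [h96.1, h96.2, hs.1, hs.2]
  have hz := zero_of_sum_pow 1048576 (by norm_num) 416 d hbound hd0 v v.2
  simp only [hd] at hz
  linarith

end Vale.Agent.Lib.P052.H29
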