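import Mathlib
import Vale.Agent.Lib.P052.helper29.MatCheck
import Vale.Agent.Lib.P052.helper29.FastData

/-!
# P052: fast Boolean tests for the matrix identity

The two families of equalities needed by `hsq_of_checks` are derived from tests that use only a
few operations on large numbers per matrix entry: the adjacency bitmask of every row is compared,
bit by bit, with its spread form in base `2 ^ 20` (`spreadRows`), the row encodings are then
affine combinations of the spread rows and of a few constants, and the column combinations reduce
to sums of row encodings over the neighbours of a vertex.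
-/

namespace Vale.Agent.Lib.P052.H29

open Vale.Agent.Lib.P052

/-- Bit `v` of `r`, as a natural number. -/
def bitN (r v : ℕ) : ℕ := Nat.land (Nat.shiftRight r v) 1

theorem bitN_le_one (r v : ℕ) : bitN r v ≤ 1 := Nat.and_le_right

theorem bitN_cast (r v : ℕ) : ((bitN r v : ℕ) : ℤ) = if r.testBit v = true then 1 else 0 := by
  have h : bitN r v = (r >>> v) % 2 := Nat.and_one_is_mod _
  have ht : r.testBit v = decide ((r >>> v) % 2 = 1) := by
    rw [Nat.testBit, Nat.and_comm, Nat.and_one_is_mod]
    rcases Nat.mod_two_eq_zero_or_one (r >>> v) with h0 | h1
    · simp [h0]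
    · simp [h1]
  rw [h, ht]
  rcases Nat.mod_two_eq_zero_or_one (r >>> v) with h0 | h1
  · simp [h0]
  · simp [h1]

/-- The spread form of a bitmask, computed bit by bit. -/
def spreadOf (r : ℕ) : ℕ :=
  (List.range 416).foldr (fun v acc => Nat.add (bitN r v) (Nat.mul 1048576 acc)) 0

/-- Coefficient of `w1` in the correction of row `k`. -/
def c1 (k : ℕ) : ℤ := 2 * w1 k + w2 k

/-- Coefficient of `w2` in the correction of row `k`. -/
def c2 (k : ℕ) : ℤ := w1 k + 2 * w2 k

/-- The test for row `k` with bitmask `r`, spread form `s` and encoding `e`. -/
def rowOk (k r s : ℕ) (e : ℤ) : Bool :=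
  Nat.beq (spreadOf r) s &&
    decide (e = 4 * (s : ℤ) - onesC + (16 - 4 * (bitN r k : ℤ)) * ((Nat.pow 1048576 k : ℕ) : ℤ)
      - c1 k * w1C - c2 k * w2C)

/-- The row tests along four lists read in parallel. -/
def check1F : List ℕ → List ℕ → List ℕ → List ℤ → Bool
  | [], _, _, _ => true
  | k :: ks, r :: rs, s :: ss, e :: es => rowOk k r s e && check1F ks rs ss es
  | _ :: _, _, _, _ => false

/-- The sum of the encodings of the rows whose bit `u` is set. -/
def nsAux (u : ℕ) : List ℕ → List ℤ → ℤ
  | r :: rs, e :: es =>
      match bitN r u with
      | 0 => nsAux u rs es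
      | _ + 1 => Int.add e (nsAux u rs es)
  | _, _ => 0

/-- The test for column `u` with bitmask `r` and encoding `e` of row `u`. -/
def colOk (u r : ℕ) (e : ℤ) : Bool :=
  decide (4 * nsAux u adjRows encRows - totC + (16 - 4 * (bitN r u : ℤ)) * e
    - c1 u * t1C - c2 u * t2C = 96 * e)

/-- The column tests along three lists read in parallel. -/
def check2F : List ℕ → List ℕ → List ℤ → Bool
  | [], _, _ => true
  | u :: us, r :: rs, e :: es => colOk u r e && check2F us rs es
  | _ :: _, _, _ => false

/-- A weighted sum of a list of integers, the weights being a function of the index. -/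
def sumAux (f : ℕ → ℤ) : List ℕ → List ℤ → ℤ
  | k :: ks, e :: es => f k * e + sumAux f ks es
  | _, _ => 0

theorem foldr_hornerN (f : ℕ → ℕ) (B : ℕ) : ∀ (n : ℕ) (a : ℕ),
    (List.range n).foldr (fun v acc => f v + B * acc) a
      = ∑ v ∈ Finset.range n, f v * B ^ v + B ^ n * a := by
  intro n
  induction n with
  | zero => intro a; simp
  | succ n ih =>
    intro a
    rw [List.range_succ, List.foldr_append, List.foldr_cons, List.foldr_nil, ih,
      Finset.sum_range_succ]
    ring

theorem spreadOf_cast (r : ℕ) :
    ((spreadOf r : ℕ) : ℤ) = ∑ v ∈ Finset.range 416, ((bitN r v : ℕ) : ℤ) * 1048576 ^ v := by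
  have h : spreadOf r = ∑ v ∈ Finset.range 416, bitN r v * 1048576 ^ v := by
    have := foldr_hornerN (fun v => bitN r v) 1048576 416 0
    simp only [mul_zero, add_zero] at this
    exact this
  rw [h]
  push_cast
  rfl

theorem check1F_sound : ∀ (ks rs ss : List ℕ) (es : List ℤ), check1F ks rs ss es = true →
    ∀ i < ks.length,
      rowOk (ks.getD i 0) (rs.getD i 0) (ss.getD i 0) (es.getD i 0) = true := by
  intro ks
  induction ks with
  | nil => intro rs ss es _ i hi; simp at hi
  | cons k ks ih =>
    intro rs ss es h i hi
    cases rs with
    | nil => simp [check1F] at h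
    | cons r rs =>
      cases ss with
      | nil => simp [check1F] at h
      | cons s ss =>
        cases es with
        | nil => simp [check1F] at h
        | cons e es =>
          rw [check1F, Bool.and_eq_true] at h
          cases i with
          | zero => simpa using h.1
          | succ i =>
            simp only [List.getD_cons_succ]
            exact ih rs ss es h.2 i (by simpa using hi)

theorem check2F_sound : ∀ (us rs : List ℕ) (es : List ℤ), check2F us rs es = true →
    ∀ i < us.length, colOk (us.getD i 0) (rs.getD i 0) (es.getD i 0) = true := by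
  intro us
  induction us with
  | nil => intro rs es _ i hi; simp at hi
  | cons u us ih =>
    intro rs es h i hi
    cases rs with
    | nil => simp [check2F] at h
    | cons r rs =>
      cases es with
      | nil => simp [check2F] at h
      | cons e es =>
        rw [check2F, Bool.and_eq_true] at h
        cases i with
        | zero => simpa using h.1
        | succ i =>
          simp only [List.getD_cons_succ]
          exact ih rs es h.2 i (by simpa using hi)

theorem nsAux_eq (u : ℕ) : ∀ (m : ℕ) (rs : List ℕ) (es : List ℤ),
    rs.length = m → es.length = m →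
    nsAux u rs es
      = ∑ i ∈ Finset.range m, ((bitN (rs.getD i 0) u : ℕ) : ℤ) * es.getD i 0 := by
  intro m
  induction m with
  | zero =>
    intro rs es hr he
    have hr' : rs = [] := List.length_eq_zero_iff.1 hr
    subst hr'
    simp [nsAux]
  | succ m ih =>
    intro rs es hr he
    cases rs with
    | nil => simp at hr
    | cons r rs =>
      cases es with
      | nil => simp at he
      | cons e es =>
        simp only [List.length_cons, add_left_inj] at hr he
        rw [Finset.sum_range_succ']
        simp only [List.getD_cons_succ, List.getD_cons_zero]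
        rw [← ih rs es hr he]
        have hle := bitN_le_one r u
        rcases Nat.lt_or_ge (bitN r u) 1 with h0 | h1
        · have h0' : bitN r u = 0 := by omega
          simp only [nsAux, h0']
          simp
        · have h1' : bitN r u = 1 := by omega
          simp only [nsAux, h1']
          simp only [Nat.cast_one, one_mul]
          exact Int.add_comm _ _

theorem sumAux_eq (f : ℕ → ℤ) : ∀ (m a : ℕ) (es : List ℤ), es.length = m →
    sumAux f (List.range' a m) es = ∑ i ∈ Finset.range m, f (a + i) * es.getD i 0 := by
  intro m
  induction m with
  | zero => intro a es _; simp [sumAux]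
  | succ m ih =>
    intro a es he
    cases es with
    | nil => simp at he
    | cons e es =>
      simp only [List.length_cons, add_left_inj] at he
      rw [List.range'_succ, sumAux, ih (a + 1) es he, Finset.sum_range_succ']
      simp only [List.getD_cons_succ, List.getD_cons_zero, add_zero]
      rw [add_comm]
      congr 1
      apply Finset.sum_congr rfl
      intro i _
      rw [show a + 1 + i = a + (i + 1) by omega]

/-- The entry `(k, v)` in terms of the bit, for the row encodings. -/
theorem entryR_row (r k v : ℕ) :
    entryR r k v = 4 * ((bitN r v : ℕ) : ℤ) - 1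
      + (if k = v then 16 - 4 * ((bitN r k : ℕ) : ℤ) else 0) - c1 k * w1 v - c2 k * w2 v := by
  unfold entryR c1 c2
  rw [bitN_cast, bitN_cast]
  by_cases h : k = v
  · subst h
    rw [if_pos rfl, if_pos rfl]
    split_ifs <;> ring
  · rw [if_neg h, if_neg h]
    split_ifs <;> ring

/-- The entry `(k, u)` in terms of the bit, for the column combinations. -/
theorem entryR_col (r k u : ℕ) :
    entryR r k u = 4 * ((bitN r u : ℕ) : ℤ) - 1
      + (if k = u then 16 - 4 * ((bitN r k : ℕ) : ℤ) else 0) - c1 u * w1 k - c2 u * w2 k := by
  rw [entryR_row]
  unfold c1 c2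
  ring

end Vale.Agent.Lib.P052.H29
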