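import Vale.Agent.Lib.P052.helper29.FastCheck

/-!
# P052: soundness of the fast tests

The constants of `FastData` are checked by the kernel, and the tests `rowOk` and `colOk` are shown
to give the equalities needed by `hsq_of_checks`.
-/

namespace Vale.Agent.Lib.P052.H29

open Vale.Agent.Lib.P052

theorem onesC_ok :
    (List.range 416).foldr (fun _ acc => (1 : ℤ) + 1048576 * acc) 0 = onesC := by
  decide +kernel

theorem w1C_ok : (List.range 416).foldr (fun v acc => w1 v + 1048576 * acc) 0 = w1C := by
  decide +kernel

theorem w2C_ok : (List.range 416).foldr (fun v acc => w2 v + 1048576 * acc) 0 = w2C := by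
  decide +kernel

theorem totC_ok : sumAux (fun _ => 1) (List.range 416) encRows = totC := by
  decide +kernel

theorem t1C_ok : sumAux w1 (List.range 416) encRows = t1C := by
  decide +kernel

theorem t2C_ok : sumAux w2 (List.range 416) encRows = t2C := by
  decide +kernel

theorem length_adjRows : adjRows.length = 416 := by decide +kernel

theorem length_encRows : encRows.length = 416 := by decide +kernel

theorem onesC_eq : onesC = ∑ v ∈ Finset.range 416, (1048576 : ℤ) ^ v := by
  rw [← onesC_ok, foldr_horner (fun _ => 1) 1048576 416 0]
  simp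

theorem w1C_eq : w1C = ∑ v ∈ Finset.range 416, w1 v * (1048576 : ℤ) ^ v := by
  rw [← w1C_ok, foldr_horner w1 1048576 416 0]
  simp

theorem w2C_eq : w2C = ∑ v ∈ Finset.range 416, w2 v * (1048576 : ℤ) ^ v := by
  rw [← w2C_ok, foldr_horner w2 1048576 416 0]
  simp

theorem totC_eq : totC = ∑ k ∈ Finset.range 416, encRows.getD k 0 := by
  rw [← totC_ok, List.range_eq_range', sumAux_eq (fun _ => 1) 416 0 encRows length_encRows]
  simp

theorem t1C_eq : t1C = ∑ k ∈ Finset.range 416, w1 k * encRows.getD k 0 := by
  rw [← t1C_ok, List.range_eq_range', sumAux_eq w1 416 0 encRows length_encRows]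
  simp

theorem t2C_eq : t2C = ∑ k ∈ Finset.range 416, w2 k * encRows.getD k 0 := by
  rw [← t2C_ok, List.range_eq_range', sumAux_eq w2 416 0 encRows length_encRows]
  simp

/-- A passed row test gives the encoding of the row. -/
theorem encRow_of_rowOk {k r s : ℕ} {e : ℤ} (hk : k < 416) (h : rowOk k r s e = true) :
    encRow r k = e := by
  rw [rowOk, Bool.and_eq_true] at h
  obtain ⟨hs, he⟩ := h
  have hs' : spreadOf r = s := Nat.eq_of_beq_eq_true hs
  have he' := of_decide_eq_true he
  have hpow : ((Nat.pow 1048576 k : ℕ) : ℤ) = (1048576 : ℤ) ^ k := by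
    have : Nat.pow 1048576 k = 1048576 ^ k := rfl
    rw [this]
    push_cast
    rfl
  rw [hpow, ← hs', spreadOf_cast, onesC_eq, w1C_eq, w2C_eq] at he'
  rw [he', encRow_eq]
  have hterm : ∀ v ∈ Finset.range 416, entryR r k v * (1048576 : ℤ) ^ v
      = 4 * (((bitN r v : ℕ) : ℤ) * 1048576 ^ v) - 1048576 ^ v
        + (if k = v then (16 - 4 * ((bitN r k : ℕ) : ℤ)) * 1048576 ^ v else 0)
        - c1 k * (w1 v * 1048576 ^ v) - c2 k * (w2 v * 1048576 ^ v) := by
    intro v _
    rw [entryR_row]
    split_ifs <;> ring
  rw [Finset.sum_congr rfl hterm]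
  simp only [Finset.sum_sub_distrib, Finset.sum_add_distrib, ← Finset.mul_sum]
  rw [Finset.sum_ite_eq (Finset.range 416) k, if_pos (Finset.mem_range.2 hk)]

/-- A passed column test gives the column combination. -/
theorem colSum_of_colOk {u : ℕ} (hu : u < 416)
    (h : colOk u (adjRows.getD u 0) (encRows.getD u 0) = true) :
    colSumAux u (List.range 416) adjRows encRows = 96 * encRows.getD u 0 := by
  have h' := of_decide_eq_true h
  rw [nsAux_eq u 416 adjRows encRows length_adjRows length_encRows, totC_eq, t1C_eq, t2C_eq] at h'
  rw [← h', List.range_eq_range', colSumAux_eq u 416 0 adjRows encRows length_adjRows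
    length_encRows]
  have hterm : ∀ k ∈ Finset.range 416,
      entryR (adjRows.getD k 0) (0 + k) u * encRows.getD k 0
      = 4 * (((bitN (adjRows.getD k 0) u : ℕ) : ℤ) * encRows.getD k 0) - encRows.getD k 0
        + (if u = k then (16 - 4 * ((bitN (adjRows.getD k 0) k : ℕ) : ℤ)) * encRows.getD k 0
            else 0)
        - c1 u * (w1 k * encRows.getD k 0) - c2 u * (w2 k * encRows.getD k 0) := by
    intro k _
    rw [zero_add, entryR_col]
    by_cases hku : k = u
    · subst hku
      rw [if_pos rfl, if_pos rfl]
      ring
    · rw [if_neg hku, if_neg (fun e => hku e.symm)]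
      ring
  rw [Finset.sum_congr rfl hterm]
  simp only [Finset.sum_sub_distrib, Finset.sum_add_distrib, ← Finset.mul_sum]
  rw [Finset.sum_ite_eq (Finset.range 416) u, if_pos (Finset.mem_range.2 hu)]

theorem getD_drop_add {α : Type*} (l : List α) (a i : ℕ) (d : α) :
    (l.drop a).getD i d = l.getD (a + i) d := by
  simp [List.getD_eq_getElem?_getD, List.getElem?_drop]

theorem getD_range'_add (a len i : ℕ) (h : i < len) : (List.range' a len).getD i 0 = a + i := by
  simp [List.getD_eq_getElem?_getD, List.getElem?_range', h]

/-- A passed block of row tests gives the row encodings of the block. -/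
theorem encRow_of_check1F {a len : ℕ}
    (h : check1F (List.range' a len) (adjRows.drop a) (spreadRows.drop a) (encRows.drop a) = true)
    {k : ℕ} (h1 : a ≤ k) (h2 : k < a + len) (hk : k < 416) :
    encRow (adjRows.getD k 0) k = encRows.getD k 0 := by
  have hi : k - a < (List.range' a len).length := by
    rw [List.length_range']
    omega
  have := check1F_sound _ _ _ _ h (k - a) hi
  rw [getD_range'_add a len (k - a) (by omega), getD_drop_add, getD_drop_add, getD_drop_add,
    show a + (k - a) = k by omega] at this
  exact encRow_of_rowOk hk this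

/-- A passed block of column tests gives the column combinations of the block. -/
theorem colSum_of_check2F {a len : ℕ}
    (h : check2F (List.range' a len) (adjRows.drop a) (encRows.drop a) = true)
    {u : ℕ} (h1 : a ≤ u) (h2 : u < a + len) (hu : u < 416) :
    colSumAux u (List.range 416) adjRows encRows = 96 * encRows.getD u 0 := by
  have hi : u - a < (List.range' a len).length := by
    rw [List.length_range']
    omega
  have := check2F_sound _ _ _ h (u - a) hi
  rw [getD_range'_add a len (u - a) (by omega), getD_drop_add, getD_drop_add,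
    show a + (u - a) = u by omega] at this
  exact colSum_of_colOk hu this

end Vale.Agent.Lib.P052.H29
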