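import Vale.Agent.Lib.P052.helper29.FastSound
import Vale.Agent.Lib.P052.helper29.Fast1
import Vale.Agent.Lib.P052.helper29.Fast2A
import Vale.Agent.Lib.P052.helper29.Fast2B

/-!
# P052: the matrix identity `Nmatᵀ * Nmat = 96 • Nmat`

Assembly of the kernel-checked blocks (`Fast1`, `Fast2A`, `Fast2B`) with `hsq_of_checks`.
-/

namespace Vale.Agent.Lib.P052.H29

open Vale.Agent.Lib.P052

theorem all_check1 : ∀ k < 416, encRow (adjRows.getD k 0) k = encRows.getD k 0 := by
  intro k hk
  by_cases h0 : k < 26
  · exact encRow_of_check1F fast1_0 (by omega) (by omega) hk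
  by_cases h26 : k < 52
  · exact encRow_of_check1F fast1_26 (by omega) (by omega) hk
  by_cases h52 : k < 78
  · exact encRow_of_check1F fast1_52 (by omega) (by omega) hk
  by_cases h78 : k < 104
  · exact encRow_of_check1F fast1_78 (by omega) (by omega) hk
  by_cases h104 : k < 130
  · exact encRow_of_check1F fast1_104 (by omega) (by omega) hk
  by_cases h130 : k < 156
  · exact encRow_of_check1F fast1_130 (by omega) (by omega) hk
  by_cases h156 : k < 182
  · exact encRow_of_check1F fast1_156 (by omega) (by omega) hk
  by_cases h182 : k < 208
  · exact encRow_of_check1F fast1_182 (by omega) (by omega) hk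
  by_cases h208 : k < 234
  · exact encRow_of_check1F fast1_208 (by omega) (by omega) hk
  by_cases h234 : k < 260
  · exact encRow_of_check1F fast1_234 (by omega) (by omega) hk
  by_cases h260 : k < 286
  · exact encRow_of_check1F fast1_260 (by omega) (by omega) hk
  by_cases h286 : k < 312
  · exact encRow_of_check1F fast1_286 (by omega) (by omega) hk
  by_cases h312 : k < 338
  · exact encRow_of_check1F fast1_312 (by omega) (by omega) hk
  by_cases h338 : k < 364
  · exact encRow_of_check1F fast1_338 (by omega) (by omega) hk
  by_cases h364 : k < 390
  · exact encRow_of_check1F fast1_364 (by omega) (by omega) hk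
  by_cases h390 : k < 416
  · exact encRow_of_check1F fast1_390 (by omega) (by omega) hk
  omega

theorem all_check2 : ∀ u < 416,
    colSumAux u (List.range 416) adjRows encRows = 96 * encRows.getD u 0 := by
  intro u hu
  by_cases h0 : u < 10
  · exact colSum_of_check2F fast2_0 (by omega) (by omega) hu
  by_cases h10 : u < 20
  · exact colSum_of_check2F fast2_10 (by omega) (by omega) hu
  by_cases h20 : u < 30
  · exact colSum_of_check2F fast2_20 (by omega) (by omega) hu
  by_cases h30 : u < 40
  · exact colSum_of_check2F fast2_30 (by omega) (by omega) hu
  by_cases h40 : u < 50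
  · exact colSum_of_check2F fast2_40 (by omega) (by omega) hu
  by_cases h50 : u < 60
  · exact colSum_of_check2F fast2_50 (by omega) (by omega) hu
  by_cases h60 : u < 70
  · exact colSum_of_check2F fast2_60 (by omega) (by omega) hu
  by_cases h70 : u < 80
  · exact colSum_of_check2F fast2_70 (by omega) (by omega) hu
  by_cases h80 : u < 90
  · exact colSum_of_check2F fast2_80 (by omega) (by omega) hu
  by_cases h90 : u < 100
  · exact colSum_of_check2F fast2_90 (by omega) (by omega) hu
  by_cases h100 : u < 110
  · exact colSum_of_check2F fast2_100 (by omega) (by omega) hu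
  by_cases h110 : u < 120
  · exact colSum_of_check2F fast2_110 (by omega) (by omega) hu
  by_cases h120 : u < 130
  · exact colSum_of_check2F fast2_120 (by omega) (by omega) hu
  by_cases h130 : u < 140
  · exact colSum_of_check2F fast2_130 (by omega) (by omega) hu
  by_cases h140 : u < 150
  · exact colSum_of_check2F fast2_140 (by omega) (by omega) hu
  by_cases h150 : u < 160
  · exact colSum_of_check2F fast2_150 (by omega) (by omega) hu
  by_cases h160 : u < 170
  · exact colSum_of_check2F fast2_160 (by omega) (by omega) hu
  by_cases h170 : u < 180
  · exact colSum_of_check2F fast2_170 (by omega) (by omega) hu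
  by_cases h180 : u < 190
  · exact colSum_of_check2F fast2_180 (by omega) (by omega) hu
  by_cases h190 : u < 200
  · exact colSum_of_check2F fast2_190 (by omega) (by omega) hu
  by_cases h200 : u < 210
  · exact colSum_of_check2F fast2_200 (by omega) (by omega) hu
  by_cases h210 : u < 220
  · exact colSum_of_check2F fast2_210 (by omega) (by omega) hu
  by_cases h220 : u < 230
  · exact colSum_of_check2F fast2_220 (by omega) (by omega) hu
  by_cases h230 : u < 240
  · exact colSum_of_check2F fast2_230 (by omega) (by omega) hu
  by_cases h240 : u < 250
  · exact colSum_of_check2F fast2_240 (by omega) (by omega) hu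
  by_cases h250 : u < 260
  · exact colSum_of_check2F fast2_250 (by omega) (by omega) hu
  by_cases h260 : u < 270
  · exact colSum_of_check2F fast2_260 (by omega) (by omega) hu
  by_cases h270 : u < 280
  · exact colSum_of_check2F fast2_270 (by omega) (by omega) hu
  by_cases h280 : u < 290
  · exact colSum_of_check2F fast2_280 (by omega) (by omega) hu
  by_cases h290 : u < 300
  · exact colSum_of_check2F fast2_290 (by omega) (by omega) hu
  by_cases h300 : u < 310
  · exact colSum_of_check2F fast2_300 (by omega) (by omega) hu
  by_cases h310 : u < 320
  · exact colSum_of_check2F fast2_310 (by omega) (by omega) hu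
  by_cases h320 : u < 330
  · exact colSum_of_check2F fast2_320 (by omega) (by omega) hu
  by_cases h330 : u < 340
  · exact colSum_of_check2F fast2_330 (by omega) (by omega) hu
  by_cases h340 : u < 350
  · exact colSum_of_check2F fast2_340 (by omega) (by omega) hu
  by_cases h350 : u < 360
  · exact colSum_of_check2F fast2_350 (by omega) (by omega) hu
  by_cases h360 : u < 370
  · exact colSum_of_check2F fast2_360 (by omega) (by omega) hu
  by_cases h370 : u < 380
  · exact colSum_of_check2F fast2_370 (by omega) (by omega) hu
  by_cases h380 : u < 390
  · exact colSum_of_check2F fast2_380 (by omega) (by omega) hu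
  by_cases h390 : u < 400
  · exact colSum_of_check2F fast2_390 (by omega) (by omega) hu
  by_cases h400 : u < 410
  · exact colSum_of_check2F fast2_400 (by omega) (by omega) hu
  by_cases h410 : u < 416
  · exact colSum_of_check2F fast2_410 (by omega) (by omega) hu
  omega

/-- The matrix identity: `Nmat / 96` is an orthogonal projection. -/
theorem Nmat_sq : Nmat.transpose * Nmat = (96 : ℤ) • Nmat :=
  hsq_of_checks length_adjRows length_encRows all_check1 all_check2

end Vale.Agent.Lib.P052.H29
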